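import Mathlib

/-! Definitions for memory-bounded learners in noiseless Gaussian linear regression (P309). -/

namespace Vale.Agent.P309

open MeasureTheory ProbabilityTheory
open scoped RealInnerProductSpace

/-- `ℝ^d` with the Euclidean norm. -/
abbrev Vec (d : ℕ) : Type := EuclideanSpace ℝ (Fin d)

/-- The unit sphere of `ℝ^d`. -/
abbrev Dir (d : ℕ) : Type := Metric.sphere (0 : Vec d) 1

/-- The uniform probability measure on the unit sphere: normalised surface measure. -/
noncomputable def unifDir (d : ℕ) : Measure (Dir d) :=
  ((volume : Measure (Vec d)).toSphere Set.univ)⁻¹ • (volume : Measure (Vec d)).toSphere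

/-- A learner with `M` bits of memory: the retained state lies in a set of `2 ^ M` elements.
Every rule may depend on the index, the state, the current pair and internal randomness
(a seed, independent of the signal and the rows). The answer may depend on the index at which
the learner stopped, on the final state and on the randomness. -/
structure Learner (d M : ℕ) where
  /-- The space of internal randomness. -/
  Seed : Type
  /-- Its measurable structure. -/
  seedSpace : MeasurableSpace Seed
  /-- The law of the internal randomness. -/
  law : @Measure Seed seedSpace
  law_prob : @IsProbabilityMeasure Seed seedSpace law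
  /-- The initial state. -/
  init : Seed → Fin (2 ^ M)
  /-- The transition after reading the pair with the given index. -/
  step : Seed → ℕ → Fin (2 ^ M) → Vec d × ℝ → Fin (2 ^ M)
  /-- The decision to stop after reading the pair with the given index. -/
  stop : Seed → ℕ → Fin (2 ^ M) → Vec d × ℝ → Bool
  /-- The answer, from the number of pairs read and the final state. -/
  out : Seed → ℕ → Fin (2 ^ M) → Dir d
  init_meas : Measurable init
  step_meas : ∀ i z, Measurable fun p : Seed × (Vec d × ℝ) => step p.1 i z p.2
  stop_meas : ∀ i z, Measurable fun p : Seed × (Vec d × ℝ) => stop p.1 i z p.2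
  out_meas : ∀ i z, Measurable fun ω => out ω i z

attribute [instance] Learner.seedSpace Learner.law_prob

variable {d M : ℕ}

/-- The state after at most `k` of the pairs `(x_i, ⟪x_i, s⟫)` have been read in order:
the retained state, the number of pairs read and whether the learner has stopped. -/
noncomputable def Learner.run (L : Learner d M) (T : ℕ) (ω : L.Seed) (s : Dir d)
    (x : Fin T → Vec d) : (k : ℕ) → Fin (2 ^ M) × ℕ × Bool
  | 0 => (L.init ω, 0, false)
  | k + 1 =>
    let p := L.run T ω s x k
    if h : k < T then
      if p.2.2 then p
      else
        (L.step ω k p.1 (x ⟨k, h⟩, ⟪x ⟨k, h⟩, (s : Vec d)⟫), k + 1,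
          L.stop ω k p.1 (x ⟨k, h⟩, ⟪x ⟨k, h⟩, (s : Vec d)⟫))
    else p

/-- The answer of the learner with horizon `T`. -/
noncomputable def Learner.answer (L : Learner d M) (T : ℕ) (ω : L.Seed) (s : Dir d)
    (x : Fin T → Vec d) : Dir d :=
  L.out ω (L.run T ω s x T).2.1 (L.run T ω s x T).1

/-- The learner with horizon `T` succeeds at accuracy `ε`: with probability at least `2/3`, over
its seed, a uniform signal and independent standard Gaussian rows, the angle between the answer
and the signal is at most `ε`. -/
def Learner.Succeeds (L : Learner d M) (T : ℕ) (ε : ℝ) : Prop :=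
  2 / 3 ≤ (L.law.prod ((unifDir d).prod (Measure.pi fun _ : Fin T => stdGaussian (Vec d))))
    {q | Real.arccos ⟪((L.answer T q.1 q.2.1 q.2.2 : Dir d) : Vec d), (q.2.1 : Vec d)⟫ ≤ ε}

end Vale.Agent.P309
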