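import Mathlib
import Vale.Agent.P309.Defs

/-! Gaussian rows: small-ball bounds and the volume of the image of a ball. -/

namespace Vale.Agent.P309

open MeasureTheory ProbabilityTheory Metric Set Module
open scoped RealInnerProductSpace ENNReal

variable {d : ℕ}

/-- The span of the vectors before the last one. -/
noncomputable def prevSpan {n : ℕ} (v : Fin (n + 1) → Vec d) : Submodule ℝ (Vec d) :=
  Submodule.span ℝ (Set.range (Fin.init v))

/-- `∏_i dist(v_i, span {v_k : k < i})⁻¹`. -/
noncomputable def volInv : (n : ℕ) → (Fin n → Vec d) → ℝ≥0∞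
  | 0, _ => 1
  | n + 1, v => volInv n (Fin.init v) *
      (ENNReal.ofReal ‖(prevSpan v)ᗮ.starProjection (v (Fin.last n))‖)⁻¹

lemma gaussian_interval (c w : ℝ) (hw : 0 ≤ w) :
    gaussianReal 0 1 (Icc (c - w) (c + w)) ≤ ENNReal.ofReal w := by
  rw [gaussianReal_apply 0 one_ne_zero]
  calc ∫⁻ x in Icc (c - w) (c + w), gaussianPDF 0 1 x
      ≤ ∫⁻ x in Icc (c - w) (c + w), ENNReal.ofReal (1 / 2) := by
        refine lintegral_mono fun x => ENNReal.ofReal_le_ofReal ?_
        rw [gaussianPDFReal]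
        refine (mul_le_of_le_one_right (by positivity) ?_).trans ?_
        · rw [Real.exp_le_one_iff]
          exact div_nonpos_of_nonpos_of_nonneg (neg_nonpos.2 (sq_nonneg _)) (by positivity)
        · rw [NNReal.coe_one, mul_one, one_div]
          refine inv_anti₀ two_pos ?_
          rw [Real.le_sqrt two_pos.le (by positivity)]
          nlinarith [Real.pi_gt_three]
    _ = _ := by
        rw [setLIntegral_const, Real.volume_Icc, ← ENNReal.ofReal_mul (by norm_num)]
        congr 1; ring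

lemma smallBall_step (hd : 0 < d) {B : Set (Vec d)} (hB : MeasurableSet B) (v u : Vec d)
    (hu : ‖u‖ = 1) (hBu : ∀ (x : Vec d) (t : ℝ), x ∈ B ↔ x + t • u ∈ B) {η : ℝ} (hη : 0 ≤ η) (hc : 0 < ⟪u, v⟫) :
    stdGaussian (Vec d) (B ∩ {x | |⟪x, v⟫| ≤ η}) ≤
      ENNReal.ofReal (η / ⟪u, v⟫) * stdGaussian (Vec d) B := by
  obtain ⟨e, rfl⟩ : ∃ e, d = e + 1 := ⟨d - 1, by omega⟩
  obtain ⟨b, hb⟩ := Orthonormal.exists_orthonormalBasis_extension_of_card_eq
    (𝕜 := ℝ) (E := Vec (e + 1)) (ι := Fin (e + 1)) (v := fun _ : Fin (e + 1) => u) (s := {0})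
    (by simp) (by
      rw [orthonormal_iff_ite]
      rintro ⟨i, hi⟩ ⟨k, hk⟩
      simp only [Set.mem_singleton_iff] at hi hk
      subst hi hk
      simp [hu])
  have hb0 : b 0 = u := hb 0 rfl
  rw [stdGaussian_eq_map_pi_orthonormalBasis b]
  set Φ : (Fin (e + 1) → ℝ) → Vec (e + 1) := fun x => ∑ i, x i • b i
  have hΦ : Measurable Φ := Finset.measurable_sum _ fun i _ =>
    (measurable_pi_apply i).smul_const _
  rw [Measure.map_apply hΦ hB, Measure.map_apply hΦ (hB.inter
    (isClosed_le (by fun_prop) continuous_const).measurableSet)]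
  set π := Measure.pi fun _ : Fin e => gaussianReal 0 1
  set e' := MeasurableEquiv.piFinSuccAbove (fun _ : Fin (e + 1) => ℝ) 0
  have hmp : MeasurePreserving e' (Measure.pi fun _ : Fin (e + 1) => gaussianReal 0 1)
      ((gaussianReal 0 1).prod π) :=
    measurePreserving_piFinSuccAbove (fun _ : Fin (e + 1) => gaussianReal 0 1) 0
  rw [← hmp.symm.measure_preimage_emb e'.symm.measurableEmbedding,
    ← hmp.symm.measure_preimage_emb e'.symm.measurableEmbedding]
  have hsplit : ∀ t z, Φ (e'.symm (t, z)) = t • u + ∑ i : Fin e, z i • b i.succ := by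
    intro t z
    simp [Φ, e', MeasurableEquiv.piFinSuccAbove, Fin.sum_univ_succ, hb0, Fin.consEquiv]
  set w : (Fin e → ℝ) → Vec (e + 1) := fun z => ∑ i : Fin e, z i • b i.succ
  have hwm : Measurable w := Finset.measurable_sum _ fun i _ =>
    (measurable_pi_apply i).smul_const _
  have hBeq : e'.symm ⁻¹' (Φ ⁻¹' B) = Set.univ ×ˢ (w ⁻¹' B) := by
    ext ⟨t, z⟩
    simp only [Set.mem_preimage, hsplit, Set.mem_prod, Set.mem_univ, true_and]
    rw [add_comm (t • u)]
    exact (hBu _ t).symm
  rw [hBeq, Measure.prod_prod, measure_univ, one_mul]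
  calc ((gaussianReal 0 1).prod π) (e'.symm ⁻¹' (Φ ⁻¹' (B ∩ {x | |⟪x, v⟫| ≤ η})))
      = ∫⁻ z, gaussianReal 0 1
          ((fun t => (t, z)) ⁻¹' (e'.symm ⁻¹' (Φ ⁻¹' (B ∩ {x | |⟪x, v⟫| ≤ η})))) ∂π :=
        Measure.prod_apply_symm (e'.symm.measurable (hΦ (hB.inter
          (isClosed_le (by fun_prop) continuous_const).measurableSet)))
    _ ≤ ∫⁻ z, (w ⁻¹' B).indicator (fun _ => ENNReal.ofReal (η / ⟪u, v⟫)) z ∂π := by
        refine lintegral_mono fun z => ?_
        by_cases hz : z ∈ w ⁻¹' B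
        · rw [Set.indicator_of_mem hz]
          refine (measure_mono ?_).trans
            (gaussian_interval (-⟪w z, v⟫ / ⟪u, v⟫) _ (div_nonneg hη hc.le))
          intro t ht
          simp only [Set.mem_preimage, hsplit, Set.mem_inter_iff, Set.mem_ofPred_eq,
            inner_add_left, real_inner_smul_left] at ht
          obtain ⟨h1, h2⟩ := abs_le.1 ht.2
          constructor
          · rw [← sub_div, div_le_iff₀ hc]; linarith
          · rw [← add_div, le_div_iff₀ hc]; linarith
        · rw [Set.indicator_of_notMem hz]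
          refine le_of_eq (measure_mono_null ?_ measure_empty)
          intro t ht
          simp only [Set.mem_preimage, hsplit, Set.mem_inter_iff] at ht
          rw [add_comm (t • u)] at ht
          exact hz ((hBu _ t).2 ht.1)
    _ = _ := by rw [lintegral_indicator (hwm hB), setLIntegral_const]

/-- Small-ball bound for one Gaussian row against `n` vectors. -/
lemma smallBall (hd : 0 < d) {η : ℝ} (hη : 0 < η) : ∀ (n : ℕ) (v : Fin n → Vec d),
    stdGaussian (Vec d) {x | ∀ i, |⟪x, v i⟫| ≤ η} ≤ ENNReal.ofReal η ^ n * volInv n v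
  | 0, v => by simp [volInv]
  | n + 1, v => by
    set w := (prevSpan v)ᗮ.starProjection (v (Fin.last n)) with hw
    by_cases h0 : w = 0
    · refine le_of_le_of_eq le_top ?_
      rw [volInv, ← hw, h0, norm_zero, ENNReal.ofReal_zero, ENNReal.inv_zero, ENNReal.mul_top,
        ENNReal.mul_top (pow_ne_zero _ (ENNReal.ofReal_pos.2 hη).ne')]
      intro hz
      have : ∀ (k : ℕ) (u : Fin k → Vec d), volInv k u ≠ 0 := by
        intro k
        induction k with
        | zero => intro u; simp [volInv]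
        | succ k ih =>
          intro u
          simp [volInv, ih]
      exact this _ _ hz
    · set u := ‖w‖⁻¹ • w
      have hu : ‖u‖ = 1 := norm_smul_inv_norm h0
      have hwmem : w ∈ (prevSpan v)ᗮ := Submodule.starProjection_apply_mem _ _
      have hcv : ⟪u, v (Fin.last n)⟫ = ‖w‖ := by
        have h1 : ⟪w, v (Fin.last n)⟫ = ‖w‖ ^ 2 := by
          conv_lhs => rw [← Submodule.starProjection_eq_self_iff.2 hwmem]
          rw [Submodule.inner_starProjection_left_eq_right, ← hw, real_inner_self_eq_norm_sq]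
        rw [real_inner_smul_left, h1, sq, ← mul_assoc, inv_mul_cancel₀ (norm_ne_zero_iff.2 h0),
          one_mul]
      have hset : {x : Vec d | ∀ i, |⟪x, v i⟫| ≤ η} =
          {x | ∀ i, |⟪x, Fin.init v i⟫| ≤ η} ∩ {x | |⟪x, v (Fin.last n)⟫| ≤ η} := by
        ext x
        simp only [Set.mem_ofPred_eq, Set.mem_inter_iff, Fin.init]
        exact ⟨fun h => ⟨fun i => h _, h _⟩, fun h i => Fin.lastCases h.2 h.1 i⟩
      rw [hset]
      refine (smallBall_step hd ?_ _ u hu ?_ hη.le ?_).trans ?_
      · simp only [Set.ofPred_forall]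
        exact MeasurableSet.iInter fun i =>
          (isClosed_le (by fun_prop) continuous_const).measurableSet
      · intro x t
        refine forall_congr' fun i => ?_
        have : ⟪u, Fin.init v i⟫ = 0 := by
          rw [real_inner_smul_left, real_inner_comm,
            hwmem _ (Submodule.subset_span ⟨i, rfl⟩), mul_zero]
        rw [inner_add_left, real_inner_smul_left, this, mul_zero, add_zero]
      · rw [hcv]; exact norm_pos_iff.2 h0
      · rw [hcv, volInv, ← hw, pow_succ, ENNReal.ofReal_div_of_pos (norm_pos_iff.2 h0),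
          div_eq_mul_inv]
        refine (mul_le_mul_right (smallBall hd hη n (Fin.init v)) _).trans (le_of_eq ?_)
        ring

/-- Small-ball bound for `m` independent rows. -/
lemma smallBall_rows (hd : 0 < d) {η : ℝ} (hη : 0 < η) (m n : ℕ) (v : Fin n → Vec d) :
    (Measure.pi fun _ : Fin m => stdGaussian (Vec d)) {X | ∀ t i, |⟪X t, v i⟫| ≤ η} ≤
      (ENNReal.ofReal η ^ n * volInv n v) ^ m := by
  have h : {X : Fin m → Vec d | ∀ t i, |⟪X t, v i⟫| ≤ η} =
      Set.univ.pi fun _ => {x | ∀ i, |⟪x, v i⟫| ≤ η} := by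
    ext X; simp [Set.pi]
  rw [h, Measure.pi_pi, Finset.prod_const, Finset.card_univ, Fintype.card_fin]
  exact pow_le_pow_left' (smallBall hd hη n v) m

lemma lintegral_norm_le (hd : 0 < d) :
    ∫⁻ x, ENNReal.ofReal ‖x‖ ∂(stdGaussian (Vec d)) ≤ ENNReal.ofReal (√d) := by
  have hd' : (0 : ℝ) < d := Nat.cast_pos.2 hd
  have hs : 0 < √(d : ℝ) := Real.sqrt_pos.2 hd'
  have hsq : ∫⁻ x, ENNReal.ofReal (‖x‖ ^ 2) ∂(stdGaussian (Vec d)) = d := by
    rw [← map_pi_eq_stdGaussian, lintegral_map (by fun_prop) (by fun_prop)]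
    have h1 : ∫⁻ t : ℝ, ENNReal.ofReal (t ^ 2) ∂(gaussianReal 0 1) = 1 := by
      rw [← ofReal_integral_eq_lintegral_ofReal _ (Filter.Eventually.of_forall fun t => sq_nonneg t)]
      · have := variance_eq_integral (μ := gaussianReal 0 1) (X := id) (by fun_prop)
        simp only [id, integral_id_gaussianReal, sub_zero, variance_id_gaussianReal,
          NNReal.coe_one] at this
        rw [← this, ENNReal.ofReal_one]
      · exact ((memLp_id_gaussianReal 2).integrable_sq)
    calc ∫⁻ x : Fin d → ℝ, ENNReal.ofReal (‖(WithLp.toLp 2 x : Vec d)‖ ^ 2)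
          ∂(Measure.pi fun _ => gaussianReal 0 1)
        = ∫⁻ x : Fin d → ℝ, ∑ i, ENNReal.ofReal (x i ^ 2)
          ∂(Measure.pi fun _ => gaussianReal 0 1) := by
          refine lintegral_congr fun x => ?_
          rw [EuclideanSpace.real_norm_sq_eq, ENNReal.ofReal_sum_of_nonneg fun i _ => sq_nonneg _]
      _ = ∑ _i : Fin d, 1 := by
          rw [lintegral_finsetSum _ fun i _ => by fun_prop]
          refine Finset.sum_congr rfl fun i _ => ?_
          rw [← h1]
          exact (measurePreserving_eval (fun _ : Fin d => gaussianReal 0 1) i).lintegral_comp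
            (by fun_prop : Measurable fun t : ℝ => ENNReal.ofReal (t ^ 2))
      _ = d := by simp
  calc ∫⁻ x, ENNReal.ofReal ‖x‖ ∂(stdGaussian (Vec d))
      ≤ ∫⁻ x, (ENNReal.ofReal (1 / (2 * √d)) * ENNReal.ofReal (‖x‖ ^ 2) +
          ENNReal.ofReal (√d / 2)) ∂(stdGaussian (Vec d)) := by
        refine lintegral_mono fun x => ?_
        rw [← ENNReal.ofReal_mul (by positivity), ← ENNReal.ofReal_add (by positivity) (by positivity)]
        refine ENNReal.ofReal_le_ofReal ?_
        field_simp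
        nlinarith [sq_nonneg (‖x‖ - √d)]
    _ = ENNReal.ofReal (√d) := by
        rw [lintegral_add_right _ measurable_const, lintegral_const_mul _ (by fun_prop), hsq,
          lintegral_const, measure_univ, mul_one, ← ENNReal.ofReal_natCast,
          ← ENNReal.ofReal_mul (by positivity), ← ENNReal.ofReal_add (by positivity) (by positivity)]
        congr 1
        field_simp
        rw [Real.sq_sqrt hd'.le]; ring

lemma lintegral_pi_pow {α : Type*} [MeasurableSpace α] (μ : Measure α) [SigmaFinite μ]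
    {f : α → ℝ≥0∞} (hf : Measurable f) :
    ∀ m, ∫⁻ x, ∏ t, f (x t) ∂(Measure.pi fun _ : Fin m => μ) = (∫⁻ a, f a ∂μ) ^ m
  | 0 => by simp
  | m + 1 => by
    have hmp := measurePreserving_piFinSuccAbove (fun _ : Fin (m + 1) => μ) 0
    have hfm : ∀ k, Measurable fun x : Fin k → α => ∏ t, f (x t) := fun k =>
      Finset.measurable_prod _ fun t _ => hf.comp (measurable_pi_apply t)
    rw [← hmp.symm.lintegral_comp (hfm _), pow_succ', ← lintegral_pi_pow μ hf m,
      ← lintegral_prod_mul hf.aemeasurable (hfm m).aemeasurable]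
    refine lintegral_congr fun p => ?_
    simp [Fin.prod_univ_succ, MeasurableEquiv.piFinSuccAbove, Fin.consEquiv]

lemma exists_triangular_basis (f : Fin d → Vec d) :
    ∃ e : OrthonormalBasis (Fin d) ℝ (Vec d), ∀ i j, i < j → ⟪e j, f i⟫ = 0 :=
  ⟨InnerProductSpace.gramSchmidtOrthonormalBasis
    (finrank_euclideanSpace_fin.trans (Fintype.card_fin d).symm) f,
    fun _ _ h => InnerProductSpace.gramSchmidtOrthonormalBasis_inv_triangular _ f h⟩

/-- The image of the ball of radius `r` under the rows `X`. -/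
def rowImage {m : ℕ} (X : Fin m → Vec d) (r : ℝ) : Set (Fin m → ℝ) :=
  (fun s t => ⟪X t, s⟫) '' closedBall 0 r

lemma volume_coordBall {m : ℕ} (hm : 0 < m) {r : ℝ} (hr : 0 < r) :
    volume {z : Fin m → ℝ | ∑ t, z t ^ 2 ≤ r ^ 2} ≤ ENNReal.ofReal ((5 * r / √m) ^ m) := by
  have hm' : (0 : ℝ) < m := Nat.cast_pos.2 hm
  set b : ℝ := m / (2 * r ^ 2)
  have hb : 0 < b := by positivity
  calc volume {z : Fin m → ℝ | ∑ t, z t ^ 2 ≤ r ^ 2}
      = ∫⁻ z, {z : Fin m → ℝ | ∑ t, z t ^ 2 ≤ r ^ 2}.indicator 1 z := by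
        rw [lintegral_indicator_one (isClosed_le (by fun_prop) continuous_const).measurableSet]
    _ ≤ ∫⁻ z : Fin m → ℝ, ∏ t, ENNReal.ofReal (Real.exp (1 / 2) * Real.exp (-b * z t ^ 2)) := by
        refine lintegral_mono fun z => ?_
        by_cases hz : z ∈ {z : Fin m → ℝ | ∑ t, z t ^ 2 ≤ r ^ 2}
        · rw [Set.indicator_of_mem hz, ← ENNReal.ofReal_prod_of_nonneg fun t _ => by positivity,
            Pi.one_apply, ← ENNReal.ofReal_one]
          refine ENNReal.ofReal_le_ofReal ?_
          simp only [← Real.exp_add, ← Real.exp_sum]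
          rw [Real.one_le_exp_iff, Finset.sum_add_distrib, ← Finset.mul_sum, Finset.sum_const,
            Finset.card_univ, Fintype.card_fin, nsmul_eq_mul]
          have h : b * ∑ t, z t ^ 2 ≤ b * r ^ 2 := mul_le_mul_of_nonneg_left hz hb.le
          have h2 : b * r ^ 2 = m * (1 / 2) := by simp only [b]; field_simp
          linarith
        · rw [Set.indicator_of_notMem hz]; exact bot_le
    _ = (∫⁻ x : ℝ, ENNReal.ofReal (Real.exp (1 / 2) * Real.exp (-b * x ^ 2))) ^ m := by
        rw [volume_pi]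
        exact lintegral_pi_pow (volume : Measure ℝ) (f := fun x => ENNReal.ofReal (Real.exp (1 / 2) * Real.exp (-b * x ^ 2))) (by fun_prop) m
    _ = ENNReal.ofReal ((Real.exp (1 / 2) * √(Real.pi / b)) ^ m) := by
        rw [← ofReal_integral_eq_lintegral_ofReal ((integrable_exp_neg_mul_sq hb).const_mul _)
            (Filter.Eventually.of_forall fun x => by positivity),
          integral_const_mul, integral_gaussian, ← ENNReal.ofReal_pow (by positivity)]
    _ ≤ _ := by
        refine ENNReal.ofReal_le_ofReal (pow_le_pow_left₀ (by positivity) ?_ m)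
        rw [le_div_iff₀ (Real.sqrt_pos.2 hm'), mul_assoc, ← Real.sqrt_mul (by positivity)]
        have h1 : Real.pi / b * m = 2 * Real.pi * r ^ 2 := by simp only [b]; field_simp
        rw [h1, Real.sqrt_mul (by positivity), Real.sqrt_sq hr.le, ← mul_assoc]
        refine mul_le_mul_of_nonneg_right ?_ hr.le
        have h2 : Real.exp (1 / 2) ≤ 1.7 := by
          have h := Real.exp_one_lt_d9
          have : Real.exp (1 / 2) ^ 2 = Real.exp 1 := by rw [← Real.exp_nat_mul]; norm_num
          nlinarith [Real.exp_pos (1 / 2 : ℝ)]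
        have h3 : √(2 * Real.pi) ≤ 2.6 :=
          Real.sqrt_le_iff.2 ⟨by norm_num, by nlinarith [Real.pi_lt_d2]⟩
        calc Real.exp (1 / 2) * √(2 * Real.pi) ≤ 1.7 * 2.6 :=
              mul_le_mul h2 h3 (Real.sqrt_nonneg _) (by norm_num)
          _ ≤ 5 := by norm_num

lemma volume_rowImage {m : ℕ} (hm : 0 < m) (hmd : m ≤ d) (X : Fin m → Vec d) {r : ℝ} (hr : 0 < r) :
    volume (rowImage X r) ≤
      ENNReal.ofReal ((5 * r / √m) ^ m) * ∏ t, ENNReal.ofReal ‖X t‖ := by
  obtain ⟨e, he⟩ := exists_triangular_basis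
    (fun i : Fin d => if h : (i : ℕ) < m then X ⟨i, h⟩ else 0)
  have htri : ∀ (t : Fin m) (u : Fin d), (t : ℕ) < u → ⟪e u, X t⟫ = 0 := by
    intro t u htu
    have := he (Fin.castLE hmd t) u htu
    simpa using this
  let A : Matrix (Fin m) (Fin m) ℝ := Matrix.of fun t u => ⟪e (Fin.castLE hmd u), X t⟫
  have hsub : rowImage X r ⊆ Matrix.toLin' A '' {z : Fin m → ℝ | ∑ t, z t ^ 2 ≤ r ^ 2} := by
    rintro _ ⟨s, hs, rfl⟩
    refine ⟨fun u => ⟪e (Fin.castLE hmd u), s⟫, ?_, ?_⟩
    · rw [mem_closedBall_zero_iff] at hs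
      simp only [Set.mem_ofPred_eq]
      calc ∑ u : Fin m, ⟪e (Fin.castLE hmd u), s⟫ ^ 2
          = ∑ u ∈ Finset.univ.map (Fin.castLEEmb hmd), ⟪e u, s⟫ ^ 2 := by simp
        _ ≤ ∑ u, ⟪e u, s⟫ ^ 2 :=
            Finset.sum_le_univ_sum_of_nonneg fun u => sq_nonneg _
        _ = ‖s‖ ^ 2 := e.sum_sq_inner_right s
        _ ≤ r ^ 2 := pow_le_pow_left₀ (norm_nonneg _) hs 2
    · ext t
      simp only [Matrix.toLin'_apply, Matrix.mulVec, dotProduct, A, Matrix.of_apply]
      rw [← e.sum_inner_mul_inner (X t) s]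
      have hz : ∀ u : Fin d, u ∉ Finset.univ.map (Fin.castLEEmb hmd) →
          ⟪X t, e u⟫ * ⟪e u, s⟫ = 0 := by
        intro u hu
        have : m ≤ (u : ℕ) := by
          by_contra h
          exact hu (Finset.mem_map.2 ⟨⟨u, not_le.1 h⟩, Finset.mem_univ _, rfl⟩)
        rw [real_inner_comm, htri t u (by omega), zero_mul]
      rw [← Finset.sum_subset (Finset.subset_univ _) fun u _ hu => hz u hu, Finset.sum_map]
      exact Finset.sum_congr rfl fun u _ => by simp [real_inner_comm (X t)]
  refine (measure_mono hsub).trans ?_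
  rw [Measure.addHaar_image_linearMap, LinearMap.det_toLin', mul_comm]
  refine mul_le_mul (volume_coordBall hm hr) ?_ bot_le bot_le
  have hA : A.det = ∏ t, A t t := Matrix.det_of_isLowerTriangular A fun t u htu =>
    htri t (Fin.castLE hmd u) htu
  rw [hA, Finset.abs_prod, ENNReal.ofReal_prod_of_nonneg fun t _ => abs_nonneg _]
  refine Finset.prod_le_prod' fun t _ => ENNReal.ofReal_le_ofReal ?_
  simpa [A] using abs_real_inner_le_norm (e (Fin.castLE hmd t)) (X t)

/-- The expected volume of the image of a ball of radius `r`. -/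
lemma lintegral_volume_rowImage {m : ℕ} (hm : 0 < m) (hmd : m ≤ d) (hdm : d ≤ 16 * m) {r : ℝ}
    (hr : 0 < r) :
    ∫⁻ X, volume (rowImage X r) ∂(Measure.pi fun _ : Fin m => stdGaussian (Vec d)) ≤
      ENNReal.ofReal ((20 * r) ^ m) := by
  have hd : 0 < d := hm.trans_le hmd
  refine (lintegral_mono fun X => volume_rowImage hm hmd X hr).trans ?_
  rw [lintegral_const_mul _ (by fun_prop), lintegral_pi_pow (stdGaussian (Vec d)) (f := fun x => ENNReal.ofReal ‖x‖) (by fun_prop) m]
  refine (mul_le_mul_right (pow_le_pow_left' (lintegral_norm_le hd) m) _).trans ?_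
  rw [← ENNReal.ofReal_pow (Real.sqrt_nonneg _), ← ENNReal.ofReal_mul (by positivity), ← mul_pow]
  refine ENNReal.ofReal_le_ofReal (pow_le_pow_left₀ (by positivity) ?_ m)
  have hsm : 0 < √(m : ℝ) := Real.sqrt_pos.2 (Nat.cast_pos.2 hm)
  rw [div_mul_eq_mul_div, div_le_iff₀ hsm]
  have : √(d : ℝ) ≤ 4 * √m := by
    rw [show (4 : ℝ) * √m = √(16 * m) by
      rw [Real.sqrt_mul (by norm_num), show √(16 : ℝ) = 4 by
        rw [show (16 : ℝ) = 4 ^ 2 by norm_num, Real.sqrt_sq (by norm_num)]]]
    exact Real.sqrt_le_sqrt (by exact_mod_cast hdm)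
  nlinarith

end Vale.Agent.P309
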