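import Mathlib
import Vale.Agent.P309.Defs

/-! Estimates for the surface measure of caps and of tubes inside caps. -/

namespace Vale.Agent.P309

open MeasureTheory Metric Set Module
open scoped RealInnerProductSpace ENNReal Pointwise

variable {d : ℕ}

/-- Surface measure, as a measure on the ambient space. -/
noncomputable def sph (d : ℕ) : Measure (Vec d) :=
  ((volume : Measure (Vec d)).toSphere).map Subtype.val

instance : IsFiniteMeasure (sph d) := by
  unfold sph; infer_instance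

lemma sph_apply {A : Set (Vec d)} (hA : MeasurableSet A) :
    sph d A = d * volume (Ioo (0 : ℝ) 1 • (A ∩ sphere 0 1)) := by
  rw [sph, Measure.map_apply measurable_subtype_coe hA, Measure.toSphere_apply' _
    (measurable_subtype_coe hA), Subtype.image_preimage_coe, finrank_euclideanSpace_fin,
    Set.inter_comm]

lemma sph_le_of_cone {A S : Set (Vec d)} (hA : MeasurableSet A)
    (h : ∀ s ∈ A, ‖s‖ = 1 → ∀ t ∈ Ioo (0 : ℝ) 1, t • s ∈ S) : sph d A ≤ d * volume S := by
  rw [sph_apply hA]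
  refine mul_le_mul_right (measure_mono ?_) _
  rintro _ ⟨t, ht, s, ⟨hs, hs1⟩, rfl⟩
  exact h s hs (by simpa using hs1) t ht

lemma le_sph_of_cone {A S : Set (Vec d)} (hA : MeasurableSet A)
    (h : ∀ x ∈ S, 0 < ‖x‖ ∧ ‖x‖ < 1 ∧ ‖x‖⁻¹ • x ∈ A) : d * volume S ≤ sph d A := by
  rw [sph_apply hA]
  refine mul_le_mul_right (measure_mono ?_) _
  intro x hx
  obtain ⟨h0, h1, h2⟩ := h x hx
  refine ⟨‖x‖, ⟨h0, h1⟩, ‖x‖⁻¹ • x, ⟨h2, ?_⟩, ?_⟩
  · simp [norm_smul, h0.ne']
  · simp [smul_smul, h0.ne']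

lemma sph_compl_sphere : sph d (sphere (0 : Vec d) 1)ᶜ = 0 := by
  rw [sph, Measure.map_apply measurable_subtype_coe isClosed_sphere.measurableSet.compl]
  simp

/-- The map scaling by `α` along `W` and by `β` on its orthogonal complement. -/
noncomputable def scaleAlong (W : Submodule ℝ (Vec d)) (α β : ℝ) : Vec d →ₗ[ℝ] Vec d :=
  α • W.starProjection.toLinearMap + β • Wᗮ.starProjection.toLinearMap

lemma scaleAlong_apply (W : Submodule ℝ (Vec d)) (α β : ℝ) (x : Vec d) :
    scaleAlong W α β x = α • W.starProjection x + β • Wᗮ.starProjection x := rfl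

lemma det_scaleAlong (W : Submodule ℝ (Vec d)) (α β : ℝ) :
    LinearMap.det (scaleAlong W α β) = α ^ finrank ℝ W * β ^ finrank ℝ Wᗮ := by
  let e := W.prodEquivOfIsCompl Wᗮ W.isCompl_orthogonal_of_hasOrthogonalProjection
  have h : scaleAlong W α β = e.toLinearMap ∘ₗ
      (LinearMap.prodMap (α • LinearMap.id) (β • LinearMap.id)) ∘ₗ e.symm.toLinearMap := by
    apply LinearMap.ext
    intro x
    obtain ⟨⟨u, v⟩, rfl⟩ := e.surjective x
    have hu : W.starProjection (v : Vec d) = 0 :=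
      (W.starProjection_apply_eq_zero_iff).2 v.2
    have hv : Wᗮ.starProjection (u : Vec d) = 0 :=
      (Wᗮ.starProjection_apply_eq_zero_iff).2 (W.le_orthogonal_orthogonal u.2)
    simp [scaleAlong_apply, e, Submodule.starProjection_eq_self_iff.2 u.2,
      Submodule.starProjection_eq_self_iff.2 v.2, hu, hv]
  rw [h, LinearMap.det_conj, LinearMap.det_prodMap, LinearMap.det_smul, LinearMap.det_smul]
  simp

/-- A cylinder around the line through the unit vector `a`. -/
def cyl (a : Vec d) (h ρ : ℝ) : Set (Vec d) :=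
  {x | |⟪x, a⟫| ≤ h ∧ ‖x - ⟪x, a⟫ • a‖ ≤ ρ}

lemma perp_eq {a : Vec d} (ha : ‖a‖ = 1) (x : Vec d) :
    (ℝ ∙ a)ᗮ.starProjection x = x - ⟪x, a⟫ • a := by
  rw [Submodule.starProjection_orthogonal_val, Submodule.starProjection_unit_singleton ℝ ha,
    real_inner_comm]

lemma finrank_line {a : Vec d} (ha : ‖a‖ = 1) :
    finrank ℝ (ℝ ∙ a) = 1 ∧ finrank ℝ (ℝ ∙ a)ᗮ = d - 1 := by
  have h1 : finrank ℝ (ℝ ∙ a) = 1 := finrank_span_singleton (by rintro rfl; simp at ha)
  refine ⟨h1, ?_⟩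
  have := (ℝ ∙ a).finrank_add_finrank_orthogonal
  rw [finrank_euclideanSpace_fin] at this
  omega

lemma volume_cyl {a : Vec d} (ha : ‖a‖ = 1) {h ρ : ℝ} (hh : 0 < h) (hρ : 0 < ρ) :
    volume (cyl a h ρ) = ENNReal.ofReal (h * ρ ^ (d - 1)) * volume (cyl a 1 1) := by
  have himg : cyl a h ρ = scaleAlong (ℝ ∙ a) h ρ '' cyl a 1 1 := by
    ext x
    constructor
    · intro hx
      refine ⟨(h⁻¹ * ⟪x, a⟫) • a + ρ⁻¹ • (x - ⟪x, a⟫ • a), ?_, ?_⟩
      · have hxa : ⟪x - ⟪x, a⟫ • a, a⟫ = 0 := by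
          simp [inner_sub_left, real_inner_smul_left, ha]
        have hy : ⟪(h⁻¹ * ⟪x, a⟫) • a + ρ⁻¹ • (x - ⟪x, a⟫ • a), a⟫ = h⁻¹ * ⟪x, a⟫ := by
          simp [inner_add_left, real_inner_smul_left, ha, hxa]
        refine ⟨?_, ?_⟩
        · rw [hy, abs_mul, abs_inv, abs_of_pos hh, inv_mul_le_iff₀ hh, mul_one]
          exact hx.1
        · rw [hy, add_sub_cancel_left, norm_smul, norm_inv, Real.norm_eq_abs, abs_of_pos hρ,
            inv_mul_le_iff₀ hρ, mul_one]
          exact hx.2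
      · rw [scaleAlong_apply, perp_eq ha, Submodule.starProjection_unit_singleton ℝ ha]
        have hxa : ⟪a, x - ⟪x, a⟫ • a⟫ = 0 := by
          simp [inner_sub_right, real_inner_smul_right, ha, real_inner_comm a x]
        simp only [inner_add_right, inner_add_left, real_inner_smul_right, real_inner_smul_left,
          real_inner_self_eq_norm_sq, ha, hxa, real_inner_comm a (x - ⟪x, a⟫ • a)]
        simp only [one_pow, mul_one, mul_zero, add_zero, smul_smul, add_sub_cancel_left]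
        rw [← mul_assoc, mul_inv_cancel₀ hh.ne', one_mul, mul_inv_cancel₀ hρ.ne', one_smul]
        abel
    · rintro ⟨y, hy, rfl⟩
      rw [scaleAlong_apply, perp_eq ha, Submodule.starProjection_unit_singleton ℝ ha]
      have e1 : ⟪h • ⟪a, y⟫ • a + ρ • (y - ⟪y, a⟫ • a), a⟫ = h * ⟪y, a⟫ := by
        simp [inner_add_left, inner_sub_left, real_inner_smul_left, ha, real_inner_comm a y]
      refine ⟨?_, ?_⟩
      · rw [e1, abs_mul, abs_of_pos hh]
        exact (mul_le_mul_of_nonneg_left hy.1 hh.le).trans_eq (mul_one h)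
      · rw [e1, smul_smul, real_inner_comm y a, add_sub_cancel_left, norm_smul, Real.norm_eq_abs,
          abs_of_pos hρ]
        exact (mul_le_mul_of_nonneg_left hy.2 hρ.le).trans_eq (mul_one ρ)
  rw [himg, Measure.addHaar_image_linearMap, det_scaleAlong, (finrank_line ha).1,
    (finrank_line ha).2, pow_one, abs_of_pos (by positivity)]

lemma volume_cyl_unit_eq {a b : Vec d} (ha : ‖a‖ = 1) (hb : ‖b‖ = 1) :
    volume (cyl a 1 1) = volume (cyl b 1 1) := by
  let R : Vec d ≃ₗᵢ[ℝ] Vec d := (ℝ ∙ (a - b))ᗮ.reflection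
  have hR : R a = b := Submodule.reflection_sub (ha.trans hb.symm)
  have h : cyl a 1 1 = R ⁻¹' cyl b 1 1 := by
    ext x
    simp only [cyl, Set.mem_preimage, ← hR, R.inner_map_map, Set.mem_ofPred_eq]
    rw [← map_smul, ← map_sub, R.norm_map]
  rw [h, R.measurePreserving.measure_preimage]
  apply MeasurableSet.nullMeasurableSet
  have h1 : Continuous fun x : Vec d => |⟪x, b⟫| := by fun_prop
  have h2 : Continuous fun x : Vec d => ‖x - ⟪x, b⟫ • b‖ := by fun_prop
  exact ((isClosed_le h1 continuous_const).inter (isClosed_le h2 continuous_const)).measurableSet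

/-- The normalising constant `c_d`. -/
noncomputable def cd (d : ℕ) [NeZero d] : ℝ≥0∞ :=
  d * volume (cyl (EuclideanSpace.single (0 : Fin d) (1 : ℝ)) 1 1)

variable [NeZero d]

lemma cd_eq {a : Vec d} (ha : ‖a‖ = 1) : cd d = d * volume (cyl a 1 1) := by
  rw [cd, volume_cyl_unit_eq (by simp) ha]

lemma cd_ne_top : cd d ≠ ⊤ := by
  refine ENNReal.mul_ne_top (ENNReal.natCast_ne_top d) (ne_top_of_le_ne_top
    (measure_closedBall_lt_top (x := (0 : Vec d)) (r := 2) (μ := volume)).ne (measure_mono ?_))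
  intro x hx
  set a : Vec d := EuclideanSpace.single (0 : Fin d) (1 : ℝ)
  have ha : ‖a‖ = 1 := by simp [a]
  rw [mem_closedBall_zero_iff]
  calc ‖x‖ = ‖(x - ⟪x, a⟫ • a) + ⟪x, a⟫ • a‖ := by rw [sub_add_cancel]
    _ ≤ ‖x - ⟪x, a⟫ • a‖ + ‖⟪x, a⟫ • a‖ := norm_add_le _ _
    _ ≤ 1 + 1 := by
        refine add_le_add hx.2 ?_
        rw [norm_smul, ha, mul_one, Real.norm_eq_abs]; exact hx.1
    _ = 2 := by norm_num

lemma cd_ne_zero : cd d ≠ 0 := by
  refine mul_ne_zero (Nat.cast_ne_zero.2 (NeZero.ne d)) ?_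
  set a : Vec d := EuclideanSpace.single (0 : Fin d) (1 : ℝ)
  have ha : ‖a‖ = 1 := by simp [a]
  refine ne_of_gt (lt_of_lt_of_le (measure_ball_pos volume (0 : Vec d)
    (by norm_num : (0 : ℝ) < 1 / 2)) (measure_mono ?_))
  intro x hx
  rw [mem_ball_zero_iff] at hx
  have h1 : |⟪x, a⟫| ≤ ‖x‖ := by simpa [ha] using abs_real_inner_le_norm x a
  refine ⟨by linarith, ?_⟩
  calc ‖x - ⟪x, a⟫ • a‖ ≤ ‖x‖ + ‖⟪x, a⟫ • a‖ := norm_sub_le _ _
    _ ≤ 1 := by rw [norm_smul, ha, mul_one, Real.norm_eq_abs]; linarith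

/-- Upper bound for caps. -/
lemma sph_cap_le {b : Vec d} (hb : ‖b‖ = 1) {ρ : ℝ} (hρ : 0 < ρ) :
    sph d (closedBall b ρ) ≤ cd d * ENNReal.ofReal ρ ^ (d - 1) := by
  refine (sph_le_of_cone (S := cyl b 1 ρ) isClosed_closedBall.measurableSet ?_).trans ?_
  · intro s hs hs1 t ht
    have hsb : ‖s - b‖ ≤ ρ := by simpa [dist_eq_norm] using hs
    refine ⟨?_, ?_⟩
    · calc |⟪t • s, b⟫| ≤ ‖t • s‖ * ‖b‖ := abs_real_inner_le_norm _ _
        _ ≤ 1 := by rw [norm_smul, hs1, hb, Real.norm_eq_abs, abs_of_pos ht.1]; linarith [ht.2]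
    · rw [← perp_eq hb, map_smul, norm_smul, Real.norm_eq_abs, abs_of_pos ht.1]
      have : (ℝ ∙ b)ᗮ.starProjection s = (ℝ ∙ b)ᗮ.starProjection (s - b) := by
        rw [map_sub, perp_eq hb b]; simp [hb]
      rw [this]
      calc t * ‖_‖ ≤ 1 * ‖s - b‖ :=
            mul_le_mul ht.2.le ((ℝ ∙ b)ᗮ.norm_starProjection_apply_le _) (norm_nonneg _) zero_le_one
        _ ≤ ρ := by rw [one_mul]; exact hsb
  · rw [volume_cyl hb one_pos hρ, one_mul, cd_eq hb, ← ENNReal.ofReal_pow hρ.le]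
    exact le_of_eq (by ring)

/-- Lower bound for caps. -/
lemma le_sph_cap {b : Vec d} (hb : ‖b‖ = 1) {ρ : ℝ} (hρ : 0 < ρ) (hρ2 : ρ ≤ 2) :
    cd d * ENNReal.ofReal ρ ^ (d - 1) ≤ 16 ^ d * sph d (closedBall b ρ) := by
  let S : Set (Vec d) := (fun x => x + (-(3 / 8 : ℝ)) • b) ⁻¹' cyl b (1 / 8) (ρ / 16)
  have hvol : volume S = ENNReal.ofReal (1 / 8 * (ρ / 16) ^ (d - 1)) * volume (cyl b 1 1) := by
    rw [measure_preimage_add_right, volume_cyl hb (by norm_num) (by positivity)]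
  have key : d * volume S ≤ sph d (closedBall b ρ) := by
    refine le_sph_of_cone isClosed_closedBall.measurableSet ?_
    intro x hx
    set α := ⟪x, b⟫ with hα
    have hin : ⟪x + (-(3 / 8 : ℝ)) • b, b⟫ = α - 3 / 8 := by
      simp [inner_add_left, real_inner_smul_left, hb, hα]; ring
    have h1 : |α - 3 / 8| ≤ 1 / 8 := hin ▸ hx.1
    have h2 : ‖x - α • b‖ ≤ ρ / 16 := by
      have := hx.2
      rw [hin] at this
      convert this using 2
      rw [sub_smul]; module
    rw [abs_le] at h1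
    set p := x - α • b
    have hxp : x = α • b + p := by simp [p]
    have hαx : α ≤ ‖x‖ :=
      ((le_abs_self α).trans (abs_real_inner_le_norm x b)).trans_eq (by rw [hb, mul_one])
    have hxn : ‖x‖ ≤ α + ‖p‖ := by
      calc ‖x‖ = ‖α • b + p‖ := by rw [← hxp]
        _ ≤ ‖α • b‖ + ‖p‖ := norm_add_le _ _
        _ = α + ‖p‖ := by rw [norm_smul, hb, mul_one, Real.norm_eq_abs, abs_of_pos (by linarith)]
    have hpos : 0 < ‖x‖ := by linarith
    refine ⟨hpos, by linarith, ?_⟩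
    rw [mem_closedBall, dist_eq_norm]
    have : ‖x‖⁻¹ • x - b = ‖x‖⁻¹ • (p + (α - ‖x‖) • b) := by
      rw [smul_add, smul_smul, mul_sub, inv_mul_cancel₀ hpos.ne', sub_smul, one_smul]
      nth_rw 2 [hxp]
      rw [smul_add, smul_smul]; abel
    rw [this, norm_smul, norm_inv, norm_norm, inv_mul_le_iff₀ hpos]
    calc ‖p + (α - ‖x‖) • b‖ ≤ ‖p‖ + ‖(α - ‖x‖) • b‖ := norm_add_le _ _
      _ = ‖p‖ + (‖x‖ - α) := by
          rw [norm_smul, hb, mul_one, Real.norm_eq_abs, abs_of_nonpos (by linarith), neg_sub]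
      _ ≤ ‖x‖ * ρ := by
          have : 1 / 4 * ρ ≤ ‖x‖ * ρ := mul_le_mul_of_nonneg_right (by linarith) hρ.le
          linarith
  refine le_trans ?_ (mul_le_mul_right key _)
  rw [hvol, cd_eq hb, ← ENNReal.ofReal_pow hρ.le,
    show (16 : ℝ≥0∞) ^ d = ENNReal.ofReal ((16 : ℝ) ^ d) by
      rw [ENNReal.ofReal_pow (by norm_num)]; simp]
  calc (d : ℝ≥0∞) * volume (cyl b 1 1) * ENNReal.ofReal (ρ ^ (d - 1))
      ≤ d * volume (cyl b 1 1) *
        (ENNReal.ofReal ((16 : ℝ) ^ d) * ENNReal.ofReal (1 / 8 * (ρ / 16) ^ (d - 1))) := by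
        refine mul_le_mul_right ?_ _
        rw [← ENNReal.ofReal_mul (by positivity)]
        refine ENNReal.ofReal_le_ofReal ?_
        obtain ⟨e, he⟩ : ∃ e, d = e + 1 := ⟨d - 1, by have := NeZero.pos d; omega⟩
        subst he
        rw [Nat.add_sub_cancel, pow_succ, div_pow]
        field_simp
        have : 0 ≤ ρ ^ e := by positivity
        linarith
    _ = _ := by ring

/-- Upper bound for a tube around an affine subspace, inside a cap. -/
lemma sph_tube_le {a : Vec d} (ha : ‖a‖ = 1) (p : Vec d) (U : Submodule ℝ (Vec d)) {j : ℕ}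
    (hj : finrank ℝ U ≤ j) (hjd : j + 2 ≤ d) {r ρ : ℝ} (hρ : 0 < ρ) (hρr : ρ ≤ r) (hr : r ≤ 2) :
    sph d ({s | ‖Uᗮ.starProjection (s - p)‖ ≤ 2 * ρ} ∩ closedBall a (2 * r)) ≤
      cd d * 4 ^ (d + 1) * ENNReal.ofReal r ^ (d - 1) * ENNReal.ofReal (ρ / r) ^ (d - j - 1) := by
  have hr0 : 0 < r := hρ.trans_le hρr
  set W := U ⊔ (ℝ ∙ p)
  have hW : finrank ℝ W ≤ j + 1 := by
    have h := Submodule.finrank_add_le_finrank_add_finrank U (ℝ ∙ p)
    have hp : finrank ℝ (ℝ ∙ p) ≤ 1 := by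
      simpa using finrank_span_le_card ({p} : Set (Vec d))
    exact h.trans (by omega)
  set k := finrank ℝ Wᗮ with hk
  have hkd : d - j - 1 ≤ k := by
    have := W.finrank_add_finrank_orthogonal
    rw [finrank_euclideanSpace_fin] at this
    omega
  let Φ := scaleAlong W 1 (r / ρ)
  have hΦd : LinearMap.det Φ = (r / ρ) ^ k := by simp [Φ, det_scaleAlong, hk]
  refine (sph_le_of_cone (S := Φ ⁻¹' cyl a 5 (4 * r)) ?_ ?_).trans ?_
  · exact ((isClosed_le (by fun_prop) continuous_const).inter isClosed_closedBall).measurableSet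
  · intro s ⟨hs, hsa⟩ hs1 t ht
    simp only [Set.mem_ofPred_eq] at hs
    have hsa' : ‖s - a‖ ≤ 2 * r := by simpa [dist_eq_norm] using hsa
    set x := t • s
    have hperp : ‖Wᗮ.starProjection x‖ ≤ 2 * ρ := by
      have hWU : Wᗮ ≤ Uᗮ := Submodule.orthogonal_le le_sup_left
      have hp : Wᗮ.starProjection p = 0 :=
        (Wᗮ.starProjection_apply_eq_zero_iff).2
          (W.le_orthogonal_orthogonal (Submodule.mem_sup_right (Submodule.mem_span_singleton_self p)))
      have h1 : Wᗮ.starProjection s = Wᗮ.starProjection (Uᗮ.starProjection (s - p)) := by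
        have h := congrArg Subtype.val
          (Submodule.orthogonalProjectionOnto_starProjection_of_le hWU (s - p))
        simp only [← Submodule.starProjection_apply] at h
        rw [h, map_sub, hp, sub_zero]
      rw [map_smul, norm_smul, Real.norm_eq_abs, abs_of_pos ht.1, h1]
      calc t * ‖_‖ ≤ 1 * (2 * ρ) := mul_le_mul ht.2.le
            ((Wᗮ.norm_starProjection_apply_le _).trans hs) (norm_nonneg _) zero_le_one
        _ = 2 * ρ := one_mul _
    have hdiff : Φ x - x = (r / ρ - 1) • Wᗮ.starProjection x := by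
      simp only [Φ, scaleAlong_apply, one_smul, Submodule.starProjection_orthogonal_val,
        sub_smul]
      module
    have hdn : ‖Φ x - x‖ ≤ 2 * r := by
      rw [hdiff, norm_smul, Real.norm_eq_abs,
        abs_of_nonneg (sub_nonneg.2 ((one_le_div hρ).2 hρr))]
      calc (r / ρ - 1) * ‖_‖ ≤ r / ρ * (2 * ρ) :=
            mul_le_mul (by linarith) hperp (norm_nonneg _) (by positivity)
        _ = 2 * r := by field_simp
    have hxn : ‖x‖ ≤ 1 := by
      rw [norm_smul, hs1, Real.norm_eq_abs, abs_of_pos ht.1]; linarith [ht.2]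
    refine Set.mem_preimage.2 ⟨?_, ?_⟩
    · calc |⟪Φ x, a⟫| ≤ ‖Φ x‖ * ‖a‖ := abs_real_inner_le_norm _ _
        _ ≤ 5 := by
            rw [ha, mul_one]
            have := norm_le_norm_add_norm_sub x (Φ x)
            rw [norm_sub_rev] at this
            linarith
    · rw [← perp_eq ha]
      have h3 : ‖(ℝ ∙ a)ᗮ.starProjection x‖ ≤ 2 * r := by
        have : (ℝ ∙ a)ᗮ.starProjection x = t • (ℝ ∙ a)ᗮ.starProjection (s - a) := by
          rw [map_sub, perp_eq ha a, map_smul]; simp [ha]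
        rw [this, norm_smul, Real.norm_eq_abs, abs_of_pos ht.1]
        calc t * ‖_‖ ≤ 1 * ‖s - a‖ := mul_le_mul ht.2.le
              ((ℝ ∙ a)ᗮ.norm_starProjection_apply_le _) (norm_nonneg _) zero_le_one
          _ ≤ 2 * r := by rw [one_mul]; exact hsa'
      calc ‖(ℝ ∙ a)ᗮ.starProjection (Φ x)‖
          ≤ ‖(ℝ ∙ a)ᗮ.starProjection x‖ + ‖(ℝ ∙ a)ᗮ.starProjection (Φ x - x)‖ := by
            have := norm_add_le ((ℝ ∙ a)ᗮ.starProjection x)
              ((ℝ ∙ a)ᗮ.starProjection (Φ x - x))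
            rwa [← map_add, add_sub_cancel] at this
        _ ≤ 2 * r + 2 * r :=
            add_le_add h3 (((ℝ ∙ a)ᗮ.norm_starProjection_apply_le _).trans hdn)
        _ = 4 * r := by ring
  · rw [Measure.addHaar_preimage_linearMap _ (by rw [hΦd]; positivity), hΦd,
      volume_cyl ha (by norm_num) (by positivity), cd_eq ha,
      ← ENNReal.ofReal_pow hr0.le, ← ENNReal.ofReal_pow (by positivity : 0 ≤ ρ / r),
      show (4 : ℝ≥0∞) ^ (d + 1) = ENNReal.ofReal ((4 : ℝ) ^ (d + 1)) by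
        rw [ENNReal.ofReal_pow (by norm_num)]; simp]
    calc (d : ℝ≥0∞) * (ENNReal.ofReal |((r / ρ) ^ k)⁻¹| *
          (ENNReal.ofReal (5 * (4 * r) ^ (d - 1)) * volume (cyl a 1 1)))
        = d * volume (cyl a 1 1) * (ENNReal.ofReal |((r / ρ) ^ k)⁻¹| *
            ENNReal.ofReal (5 * (4 * r) ^ (d - 1))) := by ring
      _ ≤ d * volume (cyl a 1 1) * (ENNReal.ofReal ((4 : ℝ) ^ (d + 1)) *
            ENNReal.ofReal (r ^ (d - 1)) * ENNReal.ofReal ((ρ / r) ^ (d - j - 1))) := by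
          refine mul_le_mul_right ?_ _
          rw [← ENNReal.ofReal_mul (by positivity), ← ENNReal.ofReal_mul (by positivity),
            ← ENNReal.ofReal_mul (by positivity)]
          refine ENNReal.ofReal_le_ofReal ?_
          rw [abs_of_pos (by positivity), ← inv_pow, inv_div, mul_pow]
          have h1 : (ρ / r) ^ k ≤ (ρ / r) ^ (d - j - 1) :=
            pow_le_pow_of_le_one (by positivity) ((div_le_one hr0).2 hρr) hkd
          have h2 : 5 * (4 : ℝ) ^ (d - 1) ≤ 4 ^ (d + 1) := by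
            rw [show d + 1 = (d - 1) + 2 by omega, pow_add]
            have : (0 : ℝ) < 4 ^ (d - 1) := by positivity
            linarith
          calc (ρ / r) ^ k * (5 * (4 ^ (d - 1) * r ^ (d - 1)))
              = (5 * 4 ^ (d - 1)) * r ^ (d - 1) * (ρ / r) ^ k := by ring
            _ ≤ _ := by gcongr
      _ = _ := by ring

end Vale.Agent.P309
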