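import Mathlib
import Vale.Agent.P309.Sphere

/-! The Morrey-type bound on value functions, and its use on tubes. -/

namespace Vale.Agent.P309

open MeasureTheory Metric Set Module
open scoped RealInnerProductSpace ENNReal

variable {d : ℕ} [NeZero d]

/-- All cap integrals of `f` are at most `A ρ^β`. -/
def Mor (β : ℕ) (A : ℝ≥0∞) (f : Vec d → ℝ≥0∞) : Prop :=
  ∀ b : Vec d, ‖b‖ = 1 → ∀ ρ : ℝ, 0 < ρ → ρ ≤ 2 →
    ∫⁻ s in closedBall b ρ, f s ∂(sph d) ≤ A * ENNReal.ofReal ρ ^ β

lemma two_six_pow : (4 : ℝ≥0∞) ^ (d + 1) * 16 ^ d = 4 * 2 ^ (6 * d) := by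
  rw [show (16 : ℝ≥0∞) = 2 ^ 4 by norm_num, show (4 : ℝ≥0∞) = 2 ^ 2 by norm_num, ← pow_mul,
    ← pow_mul, ← pow_add, ← pow_add]
  congr 1; ring

/-- The integral of `f` over a tube of width `ρ` inside a cap of radius `r`. -/
lemma mor_tube {β j : ℕ} {A : ℝ≥0∞} {f : Vec d → ℝ≥0∞} (hf : Measurable f) (hA : Mor β A f)
    {a : Vec d} (ha : ‖a‖ = 1) (p : Vec d) (U : Submodule ℝ (Vec d))
    (hj : finrank ℝ U ≤ j) (hjd : j + 2 ≤ d) (hjβ : j ≤ β)
    {r ρ : ℝ} (hρ : 0 < ρ) (hρr : ρ ≤ r) (hr : r ≤ 2) :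
    ∫⁻ s in {s | ‖Uᗮ.starProjection (s - p)‖ ≤ ρ} ∩ closedBall a r, f s ∂(sph d) ≤
      4 * 2 ^ (6 * d) * A * ENNReal.ofReal r ^ β * ENNReal.ofReal (ρ / r) ^ (β - j) := by
  have hr0 : 0 < r := hρ.trans_le hρr
  set S := {s | ‖Uᗮ.starProjection (s - p)‖ ≤ ρ} ∩ closedBall a r with hS
  have hSm : MeasurableSet S :=
    ((isClosed_le (by fun_prop) continuous_const).inter isClosed_closedBall).measurableSet
  set N := {s | ‖Uᗮ.starProjection (s - p)‖ ≤ 2 * ρ} ∩ closedBall a (2 * r) with hN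
  have hNm : MeasurableSet N :=
    ((isClosed_le (by fun_prop) continuous_const).inter isClosed_closedBall).measurableSet
  set σ := sph d
  let G : Vec d → Vec d → ℝ≥0∞ := fun b s =>
    (S.indicator f s) * ({q : Vec d × Vec d | dist q.1 q.2 ≤ ρ}.indicator 1 (b, s))
  have hGm : Measurable (Function.uncurry G) :=
    ((hf.indicator hSm).comp measurable_snd).mul
      (measurable_one.indicator (isClosed_le continuous_dist continuous_const).measurableSet)
  have hsphere : ∀ᵐ s ∂σ, s ∈ sphere (0 : Vec d) 1 := sph_compl_sphere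
  have hlow : cd d * ENNReal.ofReal ρ ^ (d - 1) * ∫⁻ s in S, f s ∂σ ≤
      16 ^ d * ∫⁻ s, ∫⁻ b, G b s ∂σ ∂σ := by
    rw [← lintegral_indicator hSm, ← lintegral_const_mul' _ _ (by finiteness [@cd_ne_top d _]),
      ← lintegral_const_mul' _ _ (by finiteness)]
    refine lintegral_mono_ae ?_
    filter_upwards [hsphere] with s hs
    have hball : ∀ b, G b s = S.indicator f s * (closedBall s ρ).indicator 1 b := by
      intro b
      simp [G, Set.indicator, mem_closedBall]
    have : ∫⁻ b, G b s ∂σ = S.indicator f s * σ (closedBall s ρ) := by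
      rw [← lintegral_indicator_one isClosed_closedBall.measurableSet,
        ← lintegral_const_mul _ (measurable_one.indicator isClosed_closedBall.measurableSet)]
      exact lintegral_congr hball
    rw [this, ← mul_assoc, mul_comm _ (S.indicator f s), mul_comm _ (S.indicator f s), mul_assoc]
    exact mul_le_mul_right (le_sph_cap (by simpa using hs) hρ (hρr.trans hr)) _
  have hup : ∫⁻ s, ∫⁻ b, G b s ∂σ ∂σ ≤ σ N * (A * ENNReal.ofReal ρ ^ β) := by
    rw [lintegral_lintegral_swap (f := fun s b => G b s) (hGm.comp measurable_swap).aemeasurable, mul_comm,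
      ← setLIntegral_const, ← lintegral_indicator hNm]
    refine lintegral_mono_ae ?_
    filter_upwards [hsphere] with b hb
    by_cases hbN : b ∈ N
    · rw [Set.indicator_of_mem hbN]
      refine le_trans ?_ (hA b (by simpa using hb) ρ hρ (hρr.trans hr))
      rw [← lintegral_indicator isClosed_closedBall.measurableSet]
      refine lintegral_mono fun s => ?_
      by_cases hs : dist b s ≤ ρ
      · rw [Set.indicator_of_mem (show s ∈ closedBall b ρ by rwa [mem_closedBall, dist_comm])]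
        exact le_trans (le_of_eq (show G b s = S.indicator f s by simp [G, hs]))
          (Set.indicator_le_self' (fun _ _ => bot_le) s)
      · simp [G, hs]
    · rw [Set.indicator_of_notMem hbN, nonpos_iff_eq_zero]
      refine (lintegral_congr fun s => ?_).trans lintegral_zero
      by_cases hs : dist b s ≤ ρ
      · have hsS : s ∉ S := by
          rintro ⟨h1, h2⟩
          refine hbN ⟨?_, ?_⟩
          · simp only [Set.mem_ofPred_eq] at h1 ⊢
            have h3 : Uᗮ.starProjection (b - p) =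
                Uᗮ.starProjection (b - s) + Uᗮ.starProjection (s - p) := by
              rw [← map_add, sub_add_sub_cancel]
            rw [h3]
            have := Uᗮ.norm_starProjection_apply_le (b - s)
            rw [← dist_eq_norm] at this
            exact (norm_add_le _ _).trans (by linarith)
          · rw [mem_closedBall] at h2 ⊢
            linarith [dist_triangle b s a]
        simp [G, hsS]
      · simp [G, hs]
  have h : cd d * ENNReal.ofReal ρ ^ (d - 1) * ∫⁻ s in S, f s ∂σ ≤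
      16 ^ d * (cd d * 4 ^ (d + 1) * ENNReal.ofReal r ^ (d - 1) *
        ENNReal.ofReal (ρ / r) ^ (d - j - 1) * (A * ENNReal.ofReal ρ ^ β)) :=
    hlow.trans (mul_le_mul_right (hup.trans (mul_le_mul_left (sph_tube_le ha p U hj hjd hρ hρr hr) _)) _)
  refine (ENNReal.mul_le_mul_iff_right (mul_ne_zero cd_ne_zero (pow_ne_zero _
    (ENNReal.ofReal_pos.2 hρ).ne')) (ENNReal.mul_ne_top cd_ne_top (by finiteness))).1
    (h.trans_eq ?_)
  have e : ENNReal.ofReal r ^ (d - 1) * ENNReal.ofReal (ρ / r) ^ (d - j - 1) *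
      ENNReal.ofReal ρ ^ β = ENNReal.ofReal ρ ^ (d - 1) * ENNReal.ofReal r ^ β *
        ENNReal.ofReal (ρ / r) ^ (β - j) := by
    have hρeq : ENNReal.ofReal ρ = ENNReal.ofReal r * ENNReal.ofReal (ρ / r) := by
      rw [← ENNReal.ofReal_mul hr0.le, mul_div_cancel₀ _ hr0.ne']
    rw [hρeq, mul_pow, mul_pow]
    obtain ⟨u, hu⟩ : ∃ u, β = j + u := ⟨β - j, by omega⟩
    obtain ⟨v, hv⟩ : ∃ v, d = j + 1 + v := ⟨d - j - 1, by omega⟩
    subst hu
    simp only [show d - j - 1 = v by omega, show d - 1 = j + v by omega, Nat.add_sub_cancel_left,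
      pow_add]
    ring
  calc 16 ^ d * (cd d * 4 ^ (d + 1) * ENNReal.ofReal r ^ (d - 1) *
        ENNReal.ofReal (ρ / r) ^ (d - j - 1) * (A * ENNReal.ofReal ρ ^ β))
      = cd d * (4 ^ (d + 1) * 16 ^ d) * A * (ENNReal.ofReal r ^ (d - 1) *
          ENNReal.ofReal (ρ / r) ^ (d - j - 1) * ENNReal.ofReal ρ ^ β) := by ring
    _ = _ := by rw [e, two_six_pow]; ring

/-- The weighted integral `∫ f (r / dist)^m` over a cap. -/
lemma mor_weight {β j m : ℕ} {A : ℝ≥0∞} {f : Vec d → ℝ≥0∞} (hf : Measurable f) (hA : Mor β A f)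
    {a : Vec d} (ha : ‖a‖ = 1) (p : Vec d) (U : Submodule ℝ (Vec d))
    (hj : finrank ℝ U ≤ j) (hjd : j + 2 ≤ d) (hm : 1 ≤ m) (hmβ : j + m + 1 ≤ β)
    {r : ℝ} (hr0 : 0 < r) (hr : r ≤ 2) :
    ∫⁻ s in closedBall a r,
        f s * ((ENNReal.ofReal ‖Uᗮ.starProjection (s - p)‖)⁻¹ * ENNReal.ofReal r) ^ m ∂(sph d) ≤
      2 ^ (6 * d + m + 4) * A * ENNReal.ofReal r ^ β := by
  let ρ : ℕ → ℝ := fun l => r * (1 / 2) ^ l
  have hρ : ∀ l, 0 < ρ l ∧ ρ l ≤ r := fun l => by
    refine ⟨by positivity, mul_le_of_le_one_right hr0.le ?_⟩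
    exact pow_le_one₀ (by norm_num) (by norm_num)
  let D : Vec d → ℝ := fun s => ‖Uᗮ.starProjection (s - p)‖
  let S : ℕ → Set (Vec d) := fun l => {s | D s ≤ ρ l}
  have hSm : ∀ l, MeasurableSet (S l) := fun l =>
    (isClosed_le (by fun_prop) continuous_const).measurableSet
  have hpt : ∀ s, ((ENNReal.ofReal (D s))⁻¹ * ENNReal.ofReal r) ^ m ≤
      1 + ∑' l, (S l).indicator (fun _ => (2 : ℝ≥0∞) ^ ((l + 1) * m)) s := by
    intro s
    by_cases hD : D s = 0
    · have h2 : (⊤ : ℝ≥0∞) ≤ ∑' l : ℕ, (S l).indicator (fun _ => (2 : ℝ≥0∞) ^ ((l + 1) * m)) s := by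
        rw [← ENNReal.tsum_const_eq_top_of_ne_zero (α := ℕ) (c := 1) one_ne_zero]
        refine ENNReal.tsum_le_tsum fun l => ?_
        rw [Set.indicator_of_mem (show s ∈ S l by simp [S, hD, (hρ l).1.le])]
        exact one_le_pow₀ one_le_two
      exact le_top.trans (h2.trans le_add_self)
    · have hD0 : 0 < D s := lt_of_le_of_ne (norm_nonneg _) (Ne.symm hD)
      rw [← ENNReal.ofReal_inv_of_pos hD0, ← ENNReal.ofReal_mul (by positivity), ← div_eq_inv_mul]
      by_cases hDr : r < D s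
      · refine le_trans (pow_le_one₀ bot_le ?_) le_self_add
        rw [← ENNReal.ofReal_one]
        exact ENNReal.ofReal_le_ofReal ((div_le_one hD0).2 hDr.le)
      · obtain ⟨l, hl1, hl2⟩ := exists_nat_pow_near_of_lt_one (div_pos hD0 hr0)
          ((div_le_one hr0).2 (not_lt.1 hDr)) (by norm_num : (0 : ℝ) < 1 / 2) (by norm_num)
        refine le_trans ?_ ((ENNReal.le_tsum l).trans le_add_self)
        have hmem : s ∈ S l := by
          change D s ≤ r * (1 / 2) ^ l
          rw [mul_comm]; exact (div_le_iff₀ hr0).1 hl2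
        rw [Set.indicator_of_mem hmem, pow_mul]
        refine pow_le_pow_left' ?_ m
        rw [show (2 : ℝ≥0∞) = ENNReal.ofReal 2 by simp, ← ENNReal.ofReal_pow (by norm_num)]
        refine ENNReal.ofReal_le_ofReal ?_
        rw [div_le_iff₀ hD0]
        have h3 := (lt_div_iff₀ hr0).1 hl1
        have h4 : (2 : ℝ) ^ (l + 1) * ((1 / 2) ^ (l + 1) * r) = r := by
          rw [← mul_assoc, ← mul_pow]; norm_num
        nlinarith [pow_pos (show (0 : ℝ) < 2 by norm_num) (l + 1)]
  calc ∫⁻ s in closedBall a r,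
        f s * ((ENNReal.ofReal ‖Uᗮ.starProjection (s - p)‖)⁻¹ * ENNReal.ofReal r) ^ m ∂(sph d)
      ≤ ∫⁻ s in closedBall a r,
          (f s + ∑' l, (S l).indicator (fun s => 2 ^ ((l + 1) * m) * f s) s) ∂(sph d) := by
        refine lintegral_mono fun s => ?_
        refine (mul_le_mul_right (hpt s) _).trans (le_of_eq ?_)
        rw [mul_add, mul_one, ← ENNReal.tsum_mul_left]
        congr 1
        refine tsum_congr fun l => ?_
        by_cases h : s ∈ S l <;> simp [h, mul_comm]
    _ = ∫⁻ s in closedBall a r, f s ∂(sph d) +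
          ∑' l, 2 ^ ((l + 1) * m) * ∫⁻ s in S l ∩ closedBall a r, f s ∂(sph d) := by
        have hmeas : ∀ l, Measurable
            ((S l).indicator fun s => (2 : ℝ≥0∞) ^ ((l + 1) * m) * f s) := fun l =>
          (hf.const_mul _).indicator (hSm l)
        rw [lintegral_add_left hf, lintegral_tsum fun l => (hmeas l).aemeasurable]
        congr 1
        refine tsum_congr fun l => ?_
        rw [lintegral_indicator (hSm l), Measure.restrict_restrict (hSm l),
          lintegral_const_mul _ hf]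
    _ ≤ A * ENNReal.ofReal r ^ β + ∑' l : ℕ,
          (2 ^ m * (4 * 2 ^ (6 * d)) * A * ENNReal.ofReal r ^ β) * (2⁻¹ : ℝ≥0∞) ^ l := by
        refine add_le_add (hA a ha r hr0 hr) (ENNReal.tsum_le_tsum fun l => ?_)
        refine (mul_le_mul_right (mor_tube hf hA ha p U hj hjd (by omega) (hρ l).1 (hρ l).2 hr) _).trans ?_
        have h1 : ENNReal.ofReal (ρ l / r) = (2⁻¹ : ℝ≥0∞) ^ l := by
          rw [mul_div_cancel_left₀ _ hr0.ne', ENNReal.ofReal_pow (by norm_num), one_div,
            ENNReal.ofReal_inv_of_pos (by norm_num)]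
          simp
        rw [h1, ← pow_mul]
        calc (2 : ℝ≥0∞) ^ ((l + 1) * m) *
              (4 * 2 ^ (6 * d) * A * ENNReal.ofReal r ^ β * 2⁻¹ ^ (l * (β - j)))
            ≤ 2 ^ ((l + 1) * m) *
              (4 * 2 ^ (6 * d) * A * ENNReal.ofReal r ^ β * 2⁻¹ ^ (l * m + l)) := by
              refine mul_le_mul_right (mul_le_mul_right
                (pow_le_pow_right_of_le_one' (by simp) ?_) _) _
              obtain ⟨u, hu⟩ : ∃ u, β - j = m + 1 + u := ⟨β - j - m - 1, by omega⟩
              rw [hu]; nlinarith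
          _ = (2 ^ m * (4 * 2 ^ (6 * d)) * A * ENNReal.ofReal r ^ β) * 2⁻¹ ^ l *
              ((2 : ℝ≥0∞) * 2⁻¹) ^ (l * m) := by ring
          _ = _ := by rw [ENNReal.mul_inv_cancel two_ne_zero ENNReal.ofNat_ne_top, one_pow, mul_one]
    _ = (1 + 2 ^ (6 * d + m + 3)) * A * ENNReal.ofReal r ^ β := by
        rw [ENNReal.tsum_mul_left, ENNReal.tsum_geometric, ENNReal.one_sub_inv_two, inv_inv]
        ring
    _ ≤ _ := by
        refine mul_le_mul_left (mul_le_mul_left ?_ _) _
        rw [pow_succ 2 (6 * d + m + 3), mul_two]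
        exact add_le_add_left (one_le_pow₀ one_le_two) _

end Vale.Agent.P309
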