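import Mathlib
import Vale.Agent.P309.Morrey
import Vale.Agent.P309.Gauss

/-! One block of rows: the cap integrals of the value functions grow by a bounded factor. -/

namespace Vale.Agent.P309

open MeasureTheory ProbabilityTheory Metric Set Module Filter Topology
open scoped RealInnerProductSpace ENNReal

variable {d m : ℕ}

/-- The law of `m` independent Gaussian rows. -/
noncomputable abbrev rows (d m : ℕ) : Measure (Fin m → Vec d) :=
  Measure.pi fun _ : Fin m => stdGaussian (Vec d)

/-- The labels of the rows `X` at the signal `s`. -/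
noncomputable def rX (X : Fin m → Vec d) (s : Vec d) : Fin m → ℝ := fun t => ⟪X t, s⟫

lemma continuous_rX : Continuous fun q : (Fin m → Vec d) × Vec d => rX q.1 q.2 :=
  continuous_pi fun t => ((continuous_apply t).comp continuous_fst).inner continuous_snd

lemma measurable_rX' {α : Type*} [MeasurableSpace α] {g : α → Fin m → Vec d} {h : α → Vec d}
    (hg : Measurable g) (hh : Measurable h) : Measurable fun x => rX (g x) (h x) :=
  continuous_rX.measurable.comp (hg.prodMk hh)

lemma rX_add (X : Fin m → Vec d) (a s : Vec d) : rX X (a + s) = rX X a + rX X s := by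
  ext t; simp [rX, inner_add_right]

lemma rX_sub (X : Fin m → Vec d) (a s : Vec d) : rX X (a - s) = rX X a - rX X s := by
  ext t; simp [rX, inner_sub_right]

/-- Pairs `(X, y)` with `y` within `δ` of the labels of some signal in the cap. -/
def SSd (a : Vec d) (r δ : ℝ) : Set ((Fin m → Vec d) × (Fin m → ℝ)) :=
  {p | ∃ s ∈ closedBall a r, dist p.2 (rX p.1 s) ≤ δ}

lemma isClosed_SSd (a : Vec d) (r δ : ℝ) : IsClosed (SSd (m := m) a r δ) := by
  have : CompactSpace (closedBall a r) := isCompact_iff_compactSpace.1 (isCompact_closedBall a r)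
  have h : SSd (m := m) a r δ = Prod.snd ''
      {q : closedBall a r × ((Fin m → Vec d) × (Fin m → ℝ)) |
        dist q.2.2 (rX q.2.1 (q.1 : Vec d)) ≤ δ} := by
    ext p
    constructor
    · rintro ⟨s, hs, h⟩
      exact ⟨(⟨s, hs⟩, p), h, rfl⟩
    · rintro ⟨⟨s, p'⟩, h, rfl⟩
      exact ⟨s, s.2, h⟩
  rw [h]
  refine isClosedMap_snd_of_compactSpace _ (isClosed_le (Continuous.dist ?_ ?_) continuous_const)
  · exact continuous_snd.comp continuous_snd
  · exact continuous_rX.comp
      ((continuous_fst.comp continuous_snd).prodMk (continuous_subtype_val.comp continuous_fst))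

lemma measurableSet_SSd (a : Vec d) (r δ : ℝ) : MeasurableSet (SSd (m := m) a r δ) :=
  (isClosed_SSd a r δ).measurableSet

lemma section_SSd_zero (a : Vec d) (r : ℝ) (X : Fin m → Vec d) :
    Prod.mk X ⁻¹' SSd a r 0 = rX X '' closedBall a r := by
  ext y
  simp only [SSd, Set.mem_preimage, Set.mem_ofPred_eq, dist_le_zero, Set.mem_image]
  exact ⟨fun ⟨s, hs, h⟩ => ⟨s, hs, h.symm⟩, fun ⟨s, hs, h⟩ => ⟨s, hs, h.symm⟩⟩

lemma volume_section_SSd_zero (a : Vec d) (r : ℝ) (X : Fin m → Vec d) :
    volume (Prod.mk X ⁻¹' SSd a r 0) = volume (rowImage X r) := by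
  have h : rX X '' closedBall a r = (fun y => rX X a + y) '' rowImage X r := by
    ext y
    constructor
    · rintro ⟨s, hs, rfl⟩
      refine ⟨rX X (s - a), ⟨s - a, ?_, rfl⟩, ?_⟩
      · rw [mem_closedBall, dist_eq_norm] at hs
        rwa [mem_closedBall_zero_iff]
      · show rX X a + rX X (s - a) = rX X s
        rw [← rX_add, add_sub_cancel]
    · rintro ⟨_, ⟨s, hs, rfl⟩, rfl⟩
      refine ⟨a + s, ?_, rX_add X a s⟩
      rw [mem_closedBall_zero_iff] at hs
      rwa [mem_closedBall, dist_eq_norm, add_sub_cancel_left]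
  rw [section_SSd_zero, h, Set.image_add_left, measure_preimage_add]

/-- The reference measure: `dX × dy` on the pairs compatible with some signal in the cap. -/
noncomputable def refM (a : Vec d) (r : ℝ) : Measure ((Fin m → Vec d) × (Fin m → ℝ)) :=
  ((rows d m).prod volume).restrict (SSd a r 0)

lemma refM_univ_le (hm : 0 < m) (hmd : m ≤ d) (hdm : d ≤ 16 * m) (a : Vec d) {r : ℝ}
    (hr : 0 < r) : refM (m := m) a r univ ≤ ENNReal.ofReal ((20 * r) ^ m) := by
  rw [refM, Measure.restrict_apply_univ, Measure.prod_apply (measurableSet_SSd a r 0)]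
  simp only [volume_section_SSd_zero]
  exact lintegral_volume_rowImage hm hmd hdm hr

/-- The normalised box kernel of radius `δ`. -/
noncomputable def ker (δ : ℝ) (z y : Fin m → ℝ) : ℝ≥0∞ :=
  {w : (Fin m → ℝ) × (Fin m → ℝ) | dist w.1 w.2 ≤ δ}.indicator
    (fun _ => (ENNReal.ofReal (2 * δ))⁻¹ ^ m) (z, y)

lemma measurable_ker (δ : ℝ) :
    Measurable fun w : (Fin m → ℝ) × (Fin m → ℝ) => ker δ w.1 w.2 :=
  measurable_const.indicator (isClosed_le continuous_dist continuous_const).measurableSet

lemma measurable_ker' {α : Type*} [MeasurableSpace α] (δ : ℝ) {g h : α → Fin m → ℝ}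
    (hg : Measurable g) (hh : Measurable h) : Measurable fun x => ker δ (g x) (h x) := by
  have h1 := (measurable_ker (m := m) δ).comp (hg.prodMk hh)
  simp only [Function.comp_def] at h1
  exact h1

lemma ker_eq_indicator (δ : ℝ) (z : Fin m → ℝ) :
    ker δ z = (closedBall z δ).indicator fun _ => (ENNReal.ofReal (2 * δ))⁻¹ ^ m := by
  funext y
  simp only [ker, Set.indicator, Set.mem_ofPred_eq, mem_closedBall, dist_comm y z]

lemma inv_pow_mul_pow {δ : ℝ} (hδ : 0 < δ) (k : ℕ) :
    (ENNReal.ofReal (2 * δ))⁻¹ ^ k * ENNReal.ofReal (2 * δ) ^ k = 1 := by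
  rw [← mul_pow, ENNReal.inv_mul_cancel (ENNReal.ofReal_pos.2 (by positivity)).ne'
    ENNReal.ofReal_ne_top, one_pow]

lemma lintegral_ker {δ : ℝ} (hδ : 0 < δ) (z : Fin m → ℝ) :
    ∫⁻ y, ker δ z y = 1 := by
  rw [ker_eq_indicator, lintegral_indicator isClosed_closedBall.measurableSet, setLIntegral_const,
    Real.volume_pi_closedBall _ hδ.le, Fintype.card_fin, ENNReal.ofReal_pow (by positivity)]
  exact inv_pow_mul_pow hδ m

section
variable {f : Vec d → ℝ≥0∞} (a : Vec d) (r : ℝ)

lemma measurable_fc (hf : Measurable f) : Measurable ((closedBall a r).indicator f) :=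
  hf.indicator isClosed_closedBall.measurableSet

lemma measurable_integrand (hf : Measurable f) (δ : ℝ) :
    Measurable fun q : ((Fin m → Vec d) × (Fin m → ℝ)) × Vec d =>
      (closedBall a r).indicator f q.2 * ker δ (rX q.1.1 q.2) q.1.2 :=
  ((measurable_fc a r hf).comp measurable_snd).mul (measurable_ker' δ
    (measurable_rX' (measurable_fst.comp measurable_fst) measurable_snd)
    (measurable_snd.comp measurable_fst))

lemma measurable_integrand' (hf : Measurable f) (δ : ℝ)
    (p : (Fin m → Vec d) × (Fin m → ℝ)) :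
    Measurable fun s : Vec d => (closedBall a r).indicator f s * ker δ (rX p.1 s) p.2 :=
  (measurable_fc a r hf).mul
    (measurable_ker' δ (measurable_rX' measurable_const measurable_id) measurable_const)

lemma measurable_integrand'' (hf : Measurable f) (δ : ℝ) {α : Type*} [MeasurableSpace α]
    {g : α → (Fin m → Vec d) × (Fin m → ℝ)} {h : α → Vec d} (hg : Measurable g)
    (hh : Measurable h) :
    Measurable fun x => (closedBall a r).indicator f (h x) * ker δ (rX (g x).1 (h x)) (g x).2 :=
  ((measurable_fc a r hf).comp hh).mul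
    (measurable_ker' δ (measurable_rX' hg.fst hh) hg.snd)

/-- The smoothed density of the labels. -/
noncomputable def qd (f : Vec d → ℝ≥0∞) (δ : ℝ) (p : (Fin m → Vec d) × (Fin m → ℝ)) : ℝ≥0∞ :=
  ∫⁻ s, (closedBall a r).indicator f s * ker δ (rX p.1 s) p.2 ∂(sph d)

lemma measurable_qd (hf : Measurable f) (δ : ℝ) : Measurable (qd (m := m) a r f δ) :=
  (measurable_integrand a r hf δ).lintegral_prod_right'

lemma qd_eq_zero {δ : ℝ} {p : (Fin m → Vec d) × (Fin m → ℝ)} (hp : p ∉ SSd a r δ) :
    qd a r f δ p = 0 := by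
  refine (lintegral_congr fun s => ?_).trans lintegral_zero
  by_cases hs : s ∈ closedBall a r
  · have : ¬ dist (rX p.1 s) p.2 ≤ δ := fun h => hp ⟨s, hs, by rwa [dist_comm]⟩
    simp [ker, this]
  · simp [hs]

end

/-- The mass that the cap sends to `D`. -/
noncomputable def pushMass (a : Vec d) (r : ℝ) (f : Vec d → ℝ≥0∞)
    (D : Set ((Fin m → Vec d) × (Fin m → ℝ))) : ℝ≥0∞ :=
  ∫⁻ X, ∫⁻ s, (closedBall a r).indicator f s * D.indicator 1 (X, rX X s) ∂(sph d) ∂(rows d m)

/-- For an open set the mass is at most the limit of the smoothed masses. -/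
lemma pushMass_le_liminf {f : Vec d → ℝ≥0∞} (hf : Measurable f) (a : Vec d) (r : ℝ)
    {U : Set ((Fin m → Vec d) × (Fin m → ℝ))} (hU : IsOpen U) {δ : ℕ → ℝ} (hδ : ∀ k, 0 < δ k)
    (hδ0 : Tendsto δ atTop (𝓝 0)) :
    pushMass a r f U ≤
      liminf (fun k => ∫⁻ p, U.indicator 1 p * qd a r f (δ k) p ∂((rows d m).prod volume))
        atTop := by
  set fc := (closedBall a r).indicator f with hfc
  have hfcm : Measurable fc := measurable_fc a r hf
  have hUm : Measurable (U.indicator (1 : (Fin m → Vec d) × (Fin m → ℝ) → ℝ≥0∞)) :=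
    measurable_one.indicator hU.measurableSet
  let H : ℕ → ((Fin m → Vec d) × Vec d) × (Fin m → ℝ) → ℝ≥0∞ := fun k w =>
    U.indicator 1 (w.1.1, w.2) * ker (δ k) (rX w.1.1 w.1.2) w.2
  have hH : ∀ k, Measurable (H k) := fun k =>
    (hUm.comp ((measurable_fst.comp measurable_fst).prodMk measurable_snd)).mul
      (measurable_ker' (δ k)
        (measurable_rX' measurable_fst.fst measurable_fst.snd) measurable_snd)
  let G : ℕ → (Fin m → Vec d) × Vec d → ℝ≥0∞ := fun k q => fc q.2 * ∫⁻ y, H k (q, y)
  have hG : ∀ k, Measurable (G k) := fun k =>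
    (hfcm.comp measurable_snd).mul (hH k).lintegral_prod_right'
  have hlhs : Measurable fun q : (Fin m → Vec d) × Vec d =>
      fc q.2 * U.indicator 1 (q.1, rX q.1 q.2) :=
    (hfcm.comp measurable_snd).mul
      (hUm.comp (measurable_fst.prodMk (measurable_rX' measurable_fst measurable_snd)))
  calc pushMass a r f U
      = ∫⁻ q, fc q.2 * U.indicator 1 (q.1, rX q.1 q.2) ∂((rows d m).prod (sph d)) :=
        (lintegral_prod _ hlhs.aemeasurable).symm
    _ ≤ ∫⁻ q, liminf (fun k => G k q) atTop ∂((rows d m).prod (sph d)) := by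
        refine lintegral_mono fun q => ?_
        by_cases hq : (q.1, rX q.1 q.2) ∈ U
        · obtain ⟨e, he, hball⟩ := Metric.isOpen_iff.1 hU _ hq
          refine le_liminf_of_le (by isBoundedDefault) ?_
          filter_upwards [hδ0.eventually (gt_mem_nhds he)] with k hk
          rw [Set.indicator_of_mem hq, Pi.one_apply, mul_one]
          refine le_of_eq ?_
          simp only [G, H]
          have : ∀ y, U.indicator 1 (q.1, y) * ker (δ k) (rX q.1 q.2) y =
              ker (δ k) (rX q.1 q.2) y := by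
            intro y
            by_cases hy : dist (rX q.1 q.2) y ≤ δ k
            · rw [Set.indicator_of_mem (hball ?_), Pi.one_apply, one_mul]
              rw [mem_ball, Prod.dist_eq, dist_self, max_lt_iff, dist_comm]
              exact ⟨he, hy.trans_lt hk⟩
            · simp [ker, hy]
          rw [lintegral_congr this, lintegral_ker (hδ k), mul_one]
        · simp [hq]
    _ ≤ liminf (fun k => ∫⁻ q, G k q ∂((rows d m).prod (sph d))) atTop := lintegral_liminf_le hG
    _ = _ := by
        congr 1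
        funext k
        have hR : Measurable fun p : (Fin m → Vec d) × (Fin m → ℝ) =>
            U.indicator 1 p * qd a r f (δ k) p := hUm.mul (measurable_qd a r hf _)
        rw [lintegral_prod _ (hG k).aemeasurable, lintegral_prod _ hR.aemeasurable]
        refine lintegral_congr fun X => ?_
        have hHX : Measurable fun w : Vec d × (Fin m → ℝ) => H k ((X, w.1), w.2) :=
          (hH k).comp ((measurable_const.prodMk measurable_fst).prodMk measurable_snd)
        calc ∫⁻ s, G k (X, s) ∂(sph d)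
            = ∫⁻ s, ∫⁻ y, fc s * H k ((X, s), y) ∂volume ∂(sph d) :=
              lintegral_congr fun s =>
                (lintegral_const_mul _ (hHX.comp measurable_prodMk_left)).symm
          _ = ∫⁻ y, ∫⁻ s, fc s * H k ((X, s), y) ∂(sph d) ∂volume :=
              lintegral_lintegral_swap
                ((hfcm.comp measurable_fst).mul hHX).aemeasurable
          _ = _ := by
              refine lintegral_congr fun y => ?_
              simp only [H, qd]
              have hm1 : Measurable fun s => fc s * ker (δ k) (rX X s) y :=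
                measurable_integrand' a r hf (δ k) (X, y)
              rw [← lintegral_const_mul _ hm1]
              exact lintegral_congr fun s => by ring

/-- The pointwise inequality `q ≤ t + t⁻ⁿ qⁿ⁺¹`. -/
lemma le_add_pow {t : ℝ≥0∞} (ht0 : t ≠ 0) (ht : t ≠ ⊤) (n : ℕ) (x : ℝ≥0∞) :
    x ≤ t + t⁻¹ ^ n * x ^ (n + 1) := by
  rcases le_total x t with h | h
  · exact h.trans le_self_add
  · refine le_trans ?_ le_add_self
    calc x = (t⁻¹ * t) ^ n * x := by rw [ENNReal.inv_mul_cancel ht0 ht, one_pow, one_mul]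
      _ ≤ (t⁻¹ * x) ^ n * x := mul_le_mul_left (pow_le_pow_left' (mul_le_mul_right h _) n) _
      _ = t⁻¹ ^ n * x ^ (n + 1) := by ring

lemma abs_inner_le_of_mem {a : Vec d} {r : ℝ} (ha : ‖a‖ = 1) (hr : r ≤ 2) {s : Vec d}
    (hs : s ∈ closedBall a r) (x : Vec d) : |⟪x, s⟫| ≤ 3 * ‖x‖ := by
  have h1 : ‖s‖ ≤ 3 := by
    rw [mem_closedBall, dist_eq_norm] at hs
    linarith [norm_le_norm_add_norm_sub' s a]
  calc |⟪x, s⟫| ≤ ‖x‖ * ‖s‖ := abs_real_inner_le_norm x s
    _ ≤ ‖x‖ * 3 := mul_le_mul_of_nonneg_left h1 (norm_nonneg _)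
    _ = _ := mul_comm _ _

lemma volume_section_SSd_le {a : Vec d} {r : ℝ} (ha : ‖a‖ = 1) (hr : r ≤ 2) {δ : ℝ}
    (hδ : δ ≤ 1) (X : Fin m → Vec d) :
    volume (Prod.mk X ⁻¹' SSd a r δ) ≤ ∏ t, ENNReal.ofReal (2 * (3 * ‖X t‖ + 1)) := by
  refine (measure_mono (t := Icc (fun t => -(3 * ‖X t‖ + 1)) (fun t => 3 * ‖X t‖ + 1)) ?_).trans
    (le_of_eq ?_)
  · rintro y ⟨s, hs, hy⟩
    have h : ∀ t, |y t| ≤ 3 * ‖X t‖ + 1 := fun t => by
      have h1 : |y t - ⟪X t, s⟫| ≤ 1 := ((dist_le_pi_dist y (rX X s) t).trans hy).trans hδ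
      have h2 := abs_inner_le_of_mem ha hr hs (X t)
      have h3 := abs_sub_abs_le_abs_sub (y t) ⟪X t, s⟫
      linarith
    exact ⟨fun t => (abs_le.1 (h t)).1, fun t => (abs_le.1 (h t)).2⟩
  · rw [Real.volume_Icc_pi]
    refine Finset.prod_congr rfl fun t _ => ?_
    congr 1; ring

/-- Smoothing: the mass sent to an open set, through a bound on the moments of the density. -/
lemma pushMass_open_le {f : Vec d → ℝ≥0∞} (hf : Measurable f) {a : Vec d} (ha : ‖a‖ = 1) {r : ℝ}
    (hr : r ≤ 2) (hd : 0 < d) {n : ℕ} {J t : ℝ≥0∞} (ht0 : t ≠ 0) (ht : t ≠ ⊤)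
    (hJ : ∀ δ : ℝ, 0 < δ → ∫⁻ p, qd a r f δ p ^ (n + 1) ∂((rows d m).prod volume) ≤ J)
    {U : Set ((Fin m → Vec d) × (Fin m → ℝ))} (hU : IsOpen U) :
    pushMass a r f U ≤ t * refM a r U + t⁻¹ ^ n * J := by
  let δ : ℕ → ℝ := fun k => 1 / ((k : ℝ) + 1)
  have hδ : ∀ k, 0 < δ k := fun k => by positivity
  have hδ1 : ∀ k, δ k ≤ 1 := fun k => by
    rw [div_le_one (by positivity)]; linarith [(Nat.cast_nonneg k : (0 : ℝ) ≤ k)]
  have hδ0 : Tendsto δ atTop (𝓝 0) := tendsto_one_div_add_atTop_nhds_zero_nat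
  have hanti : ∀ j k : ℕ, j ≤ k → δ k ≤ δ j := fun j k h =>
    one_div_le_one_div_of_le (by positivity) (by simpa using h)
  refine (pushMass_le_liminf hf a r hU hδ hδ0).trans ?_
  let W : ℕ → Set ((Fin m → Vec d) × (Fin m → ℝ)) := fun k => U ∩ SSd a r (δ k)
  have hWm : ∀ k, MeasurableSet (W k) := fun k =>
    hU.measurableSet.inter (measurableSet_SSd a r _)
  have hfin : ∫⁻ X : Fin m → Vec d, ∏ t, ENNReal.ofReal (2 * (3 * ‖X t‖ + 1)) ∂(rows d m) ≠ ⊤ := by
    rw [lintegral_pi_pow (stdGaussian (Vec d))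
      (f := fun x => ENNReal.ofReal (2 * (3 * ‖x‖ + 1))) (by fun_prop) m]
    refine ENNReal.pow_ne_top ?_
    have h : ∀ x : Vec d, ENNReal.ofReal (2 * (3 * ‖x‖ + 1)) =
        ENNReal.ofReal 6 * ENNReal.ofReal ‖x‖ + ENNReal.ofReal 2 := fun x => by
      rw [← ENNReal.ofReal_mul (by norm_num), ← ENNReal.ofReal_add (by positivity) (by norm_num)]
      congr 1; ring
    rw [lintegral_congr h, lintegral_add_right _ measurable_const,
      lintegral_const_mul _ (by fun_prop)]
    refine ENNReal.add_ne_top.2 ⟨ENNReal.mul_ne_top ENNReal.ofReal_ne_top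
      (ne_top_of_le_ne_top ENNReal.ofReal_ne_top (lintegral_norm_le hd)), ?_⟩
    rw [lintegral_const, measure_univ, mul_one]
    exact ENNReal.ofReal_ne_top
  have hlim : Tendsto (fun k => ((rows d m).prod volume) (W k)) atTop (𝓝 (refM a r U)) := by
    rw [refM, Measure.restrict_apply hU.measurableSet,
      Measure.prod_apply (hU.measurableSet.inter (measurableSet_SSd a r 0))]
    simp only [Measure.prod_apply (hWm _)]
    refine tendsto_lintegral_of_dominated_convergence _
      (fun k => measurable_measure_prodMk_left (hWm k))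
      (fun k => Eventually.of_forall fun X =>
        (measure_mono (Set.preimage_mono Set.inter_subset_right)).trans
          (volume_section_SSd_le ha hr (hδ1 k) X)) hfin (Eventually.of_forall fun X => ?_)
    have hinter : Prod.mk X ⁻¹' (U ∩ SSd a r 0) = ⋂ k, Prod.mk X ⁻¹' W k := by
      ext y
      simp only [Set.mem_iInter, Set.mem_preimage, W, Set.mem_inter_iff]
      constructor
      · rintro ⟨h1, s, hs, h2⟩ k
        exact ⟨h1, s, hs, h2.trans (hδ k).le⟩
      · intro h
        refine ⟨(h 0).1, ?_⟩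
        change y ∈ Prod.mk X ⁻¹' SSd a r 0
        rw [section_SSd_zero]
        have hcl : IsClosed (rX X '' closedBall a r) :=
          ((isCompact_closedBall a r).image
            (continuous_rX.comp (continuous_const.prodMk continuous_id))).isClosed
        rw [← hcl.closure_eq, Metric.mem_closure_iff]
        intro e he
        obtain ⟨k, hk⟩ := (hδ0.eventually (gt_mem_nhds he)).exists
        obtain ⟨s, hs, hy⟩ := (h k).2
        exact ⟨_, Set.mem_image_of_mem _ hs, hy.trans_lt hk⟩
    rw [hinter]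
    refine tendsto_measure_iInter_atTop (fun k => (measurable_prodMk_left (hWm k)).nullMeasurableSet)
      (fun j k hjk y hy => ?_) ⟨0, ?_⟩
    · obtain ⟨h1, s, hs, h2⟩ := hy
      exact ⟨h1, s, hs, h2.trans (hanti j k hjk)⟩
    · exact ne_top_of_le_ne_top (ENNReal.prod_ne_top fun t _ => ENNReal.ofReal_ne_top)
        ((measure_mono (Set.preimage_mono Set.inter_subset_right)).trans
          (volume_section_SSd_le ha hr (hδ1 0) X))
  have hle : ∀ k, ∫⁻ p, U.indicator 1 p * qd a r f (δ k) p ∂((rows d m).prod volume) ≤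
      t * ((rows d m).prod volume) (W k) + t⁻¹ ^ n * J := by
    intro k
    calc ∫⁻ p, U.indicator 1 p * qd a r f (δ k) p ∂((rows d m).prod volume)
        ≤ ∫⁻ p, ((W k).indicator (fun _ => t) p + t⁻¹ ^ n * qd a r f (δ k) p ^ (n + 1))
            ∂((rows d m).prod volume) := by
          refine lintegral_mono fun p => ?_
          by_cases hp : p ∈ W k
          · rw [Set.indicator_of_mem hp, Set.indicator_of_mem hp.1, Pi.one_apply, one_mul]
            exact le_add_pow ht0 ht n _
          · refine le_trans (le_of_eq ?_) bot_le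
            by_cases hpU : p ∈ U
            · rw [qd_eq_zero a r (fun h => hp ⟨hpU, h⟩), mul_zero]; rfl
            · rw [Set.indicator_of_notMem hpU, zero_mul]; rfl
      _ ≤ _ := by
          rw [lintegral_add_left (measurable_const.indicator (hWm k)),
            lintegral_indicator (hWm k), setLIntegral_const,
            lintegral_const_mul _ ((measurable_qd a r hf _).pow_const _)]
          exact add_le_add le_rfl (mul_le_mul_right (hJ _ (hδ k)) _)
  refine (liminf_le_liminf (Eventually.of_forall hle)).trans (le_of_eq ?_)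
  exact ((ENNReal.Tendsto.const_mul hlim (Or.inr ht)).add tendsto_const_nhds).liminf_eq

/-- The replica bound for the moments of the smoothed density. -/
lemma lintegral_qd_pow_le {f : Vec d → ℝ≥0∞} (hf : Measurable f) (hd : 0 < d) (a : Vec d)
    (r : ℝ) {δ : ℝ} (hδ : 0 < δ) (n : ℕ) :
    ∫⁻ p, qd (m := m) a r f δ p ^ (n + 1) ∂((rows d m).prod volume) ≤
      ∫⁻ s : Fin (n + 1) → Vec d, (∏ i, (closedBall a r).indicator f (s i)) *
        volInv n (fun i => s i.succ - s 0) ^ m ∂(Measure.pi fun _ => sph d) := by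
  set fc := (closedBall a r).indicator f with hfc
  have hfcm : Measurable fc := measurable_fc a r hf
  let K : ((Fin m → Vec d) × (Fin m → ℝ)) × (Fin (n + 1) → Vec d) → ℝ≥0∞ := fun w =>
    ∏ i, fc (w.2 i) * ker δ (rX w.1.1 (w.2 i)) w.1.2
  have hK : Measurable K := Finset.measurable_prod _ fun i _ =>
    measurable_integrand'' a r hf δ measurable_fst ((measurable_pi_apply i).comp measurable_snd)
  have hpow : ∀ p, qd a r f δ p ^ (n + 1) =
      ∫⁻ s, K (p, s) ∂(Measure.pi fun _ : Fin (n + 1) => sph d) := fun p =>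
    (lintegral_pi_pow (sph d) (measurable_integrand' a r hf δ p) (n + 1)).symm
  rw [lintegral_congr hpow, lintegral_lintegral_swap (f := fun p s => K (p, s)) hK.aemeasurable]
  refine lintegral_mono fun s => ?_
  have hker : Measurable fun p : (Fin m → Vec d) × (Fin m → ℝ) =>
      ∏ i, ker δ (rX p.1 (s i)) p.2 := Finset.measurable_prod _ fun i _ =>
    measurable_ker' δ (measurable_rX' measurable_fst measurable_const) measurable_snd
  simp only [K, Finset.prod_mul_distrib]
  rw [lintegral_const_mul _ hker]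
  refine mul_le_mul_right ?_ _
  rw [lintegral_prod _ hker.aemeasurable]
  set c : ℝ≥0∞ := (ENNReal.ofReal (2 * δ))⁻¹ with hc
  let P : Set (Fin m → Vec d) := {X | ∀ t i, |⟪X t, s (Fin.succ i) - s 0⟫| ≤ 2 * δ}
  have hbound : ∀ X y, ∏ i, ker δ (rX X (s i)) y ≤
      P.indicator (fun _ => c ^ (m * n)) X * ker δ (rX X (s 0)) y := by
    intro X y
    rw [Fin.prod_univ_succ, mul_comm]
    by_cases hall : ∀ i, dist (rX X (s i)) y ≤ δ
    · refine mul_le_mul_left ?_ _
      have hXP : X ∈ P := fun t i => by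
        have h1 := dist_triangle_right (rX X (s i.succ) t) (rX X (s 0) t) (y t)
        have h2 := (dist_le_pi_dist (rX X (s i.succ)) y t).trans (hall _)
        have h3 := (dist_le_pi_dist (rX X (s 0)) y t).trans (hall _)
        rw [inner_sub_right]
        rw [Real.dist_eq] at h1
        change |rX X (s i.succ) t - rX X (s 0) t| ≤ 2 * δ
        linarith
      rw [Set.indicator_of_mem hXP, pow_mul]
      refine (Finset.prod_le_pow_card _ _ (c ^ m) fun i _ => ?_).trans (le_of_eq (by simp))
      exact Set.indicator_le_self' (s := {w : (Fin m → ℝ) × (Fin m → ℝ) | dist w.1 w.2 ≤ δ})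
        (f := fun _ => c ^ m) (fun _ _ => bot_le) _
    · push Not at hall
      obtain ⟨i, hi⟩ := hall
      have h0 : ker δ (rX X (s i)) y = 0 := by simp [ker, hi.not_ge]
      refine le_trans (le_of_eq ?_) bot_le
      rcases Fin.eq_zero_or_eq_succ i with rfl | ⟨j, rfl⟩
      · rw [h0, mul_zero]; rfl
      · rw [Finset.prod_eq_zero (Finset.mem_univ j) h0, zero_mul]; rfl
  have hPm : MeasurableSet P := by
    simp only [P, Set.ofPred_forall]
    exact MeasurableSet.iInter fun t => MeasurableSet.iInter fun i =>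
      (isClosed_le (by fun_prop) continuous_const).measurableSet
  calc ∫⁻ X, ∫⁻ y, ∏ i, ker δ (rX X (s i)) y ∂volume ∂(rows d m)
      ≤ ∫⁻ X, P.indicator (fun _ => c ^ (m * n)) X ∂(rows d m) := by
        refine lintegral_mono fun X => (lintegral_mono (hbound X)).trans (le_of_eq ?_)
        rw [lintegral_const_mul _ (show Measurable fun y => ker δ (rX X (s 0)) y from
          measurable_ker' δ measurable_const measurable_id), lintegral_ker hδ, mul_one]
    _ = c ^ (m * n) * rows d m P := by rw [lintegral_indicator hPm, setLIntegral_const]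
    _ ≤ c ^ (m * n) * (ENNReal.ofReal (2 * δ) ^ n * volInv n (fun i => s i.succ - s 0)) ^ m :=
        mul_le_mul_right (smallBall_rows hd (by positivity) m n _) _
    _ = _ := by
        rw [mul_pow, ← mul_assoc, ← pow_mul, mul_comm n m, hc, inv_pow_mul_pow hδ, one_mul]

/-- Peeling off one replica at a time. -/
lemma lintegral_volInv_le [NeZero d] {β j : ℕ} {A : ℝ≥0∞} (hA0 : A ≠ ⊤) {f : Vec d → ℝ≥0∞}
    (hf : Measurable f) (hA : Mor β A f) {a : Vec d} (ha : ‖a‖ = 1) {r : ℝ} (hr0 : 0 < r)
    (hr : r ≤ 2) (hjd : j + 2 ≤ d) (hm : 1 ≤ m) (hmβ : j + m + 1 ≤ β) (s₀ : Vec d) :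
    ∀ k, k ≤ j + 1 → ∫⁻ w : Fin k → Vec d, (∏ i, (closedBall a r).indicator f (w i)) *
        volInv k (fun i => w i - s₀) ^ m ∂(Measure.pi fun _ => sph d) ≤
      (2 ^ (6 * d + m + 4) * A * ENNReal.ofReal r ^ β * (ENNReal.ofReal r)⁻¹ ^ m) ^ k
  | 0, _ => by simp [volInv]
  | k + 1, hk => by
    set G : ℝ≥0∞ := 2 ^ (6 * d + m + 4) * A * ENNReal.ofReal r ^ β * (ENNReal.ofReal r)⁻¹ ^ m
    have hR0 : ENNReal.ofReal r ≠ 0 := (ENNReal.ofReal_pos.2 hr0).ne'
    have hGt : G ≠ ⊤ := by
      simp only [G]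
      finiteness
    set e := MeasurableEquiv.piFinSuccAbove (fun _ : Fin (k + 1) => Vec d) (Fin.last k)
    have hmp : MeasurePreserving e (Measure.pi fun _ : Fin (k + 1) => sph d)
        ((sph d).prod (Measure.pi fun _ : Fin k => sph d)) :=
      measurePreserving_piFinSuccAbove (fun _ : Fin (k + 1) => sph d) (Fin.last k)
    let e₂ : (Fin k → Vec d) × Vec d ≃ᵐ (Fin (k + 1) → Vec d) :=
      MeasurableEquiv.prodComm.trans e.symm
    have hmp₂ : MeasurePreserving e₂ ((Measure.pi fun _ : Fin k => sph d).prod (sph d))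
        (Measure.pi fun _ : Fin (k + 1) => sph d) :=
      hmp.symm.comp (Measure.measurePreserving_swap (μ := Measure.pi fun _ : Fin k => sph d)
        (ν := sph d))
    rw [← hmp₂.lintegral_comp_emb e₂.measurableEmbedding]
    refine (lintegral_prod_le _).trans ?_
    have hins : ∀ w x, e₂ (w, x) = Fin.snoc w x := by
      intro w x
      simp [e₂, e, MeasurableEquiv.piFinSuccAbove, MeasurableEquiv.prodComm, Fin.snocEquiv]
    simp only [hins]
    calc ∫⁻ w : Fin k → Vec d, ∫⁻ x, (∏ i : Fin (k + 1),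
          (closedBall a r).indicator f ((Fin.snoc w x : Fin (k + 1) → Vec d) i)) *
          volInv (k + 1) (fun i => (Fin.snoc w x : Fin (k + 1) → Vec d) i - s₀) ^ m ∂(sph d)
          ∂(Measure.pi fun _ => sph d)
        ≤ ∫⁻ w : Fin k → Vec d, (∏ i, (closedBall a r).indicator f (w i)) *
            volInv k (fun i => w i - s₀) ^ m * G ∂(Measure.pi fun _ => sph d) := by
          refine lintegral_mono fun w => ?_
          set U : Submodule ℝ (Vec d) :=
            Submodule.span ℝ (Set.range fun i : Fin k => w i - s₀)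
          have hU : finrank ℝ U ≤ j :=
            (finrank_range_le_card _).trans (by rw [Fintype.card_fin]; omega)
          have hfac : ∀ x, (∏ i : Fin (k + 1),
                (closedBall a r).indicator f ((Fin.snoc w x : Fin (k + 1) → Vec d) i)) *
              volInv (k + 1) (fun i => (Fin.snoc w x : Fin (k + 1) → Vec d) i - s₀) ^ m =
              ((∏ i, (closedBall a r).indicator f (w i)) * volInv k (fun i => w i - s₀) ^ m) *
              ((closedBall a r).indicator f x *
                (ENNReal.ofReal ‖Uᗮ.starProjection (x - s₀)‖)⁻¹ ^ m) := by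
            intro x
            have hinit : Fin.init (fun i => (Fin.snoc w x : Fin (k + 1) → Vec d) i - s₀) =
                fun i => w i - s₀ := by
              funext i; simp [Fin.init]
            have hps : prevSpan (fun i => (Fin.snoc w x : Fin (k + 1) → Vec d) i - s₀) = U := by
              simp only [prevSpan, hinit, U]
            rw [volInv, hinit, Fin.prod_univ_castSucc, mul_pow]
            simp only [hps]
            simp only [Fin.snoc_castSucc, Fin.snoc_last]
            ring
          rw [lintegral_congr hfac, lintegral_const_mul _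
            (show Measurable fun x => (closedBall a r).indicator f x *
              (ENNReal.ofReal ‖Uᗮ.starProjection (x - s₀)‖)⁻¹ ^ m from
              (measurable_fc a r hf).mul (by fun_prop))]
          refine mul_le_mul_right ?_ _
          have hw := mor_weight hf hA ha s₀ U hU hjd hm hmβ hr0 hr
          rw [← lintegral_indicator isClosed_closedBall.measurableSet] at hw
          calc ∫⁻ x, (closedBall a r).indicator f x *
                (ENNReal.ofReal ‖Uᗮ.starProjection (x - s₀)‖)⁻¹ ^ m ∂(sph d)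
              = ∫⁻ x, (closedBall a r).indicator (fun s => f s *
                  ((ENNReal.ofReal ‖Uᗮ.starProjection (s - s₀)‖)⁻¹ * ENNReal.ofReal r) ^ m) x *
                  (ENNReal.ofReal r)⁻¹ ^ m ∂(sph d) := by
                refine lintegral_congr fun x => ?_
                by_cases hx : x ∈ closedBall a r
                · rw [Set.indicator_of_mem hx, Set.indicator_of_mem hx, mul_assoc, ← mul_pow,
                    mul_assoc, ENNReal.mul_inv_cancel hR0 ENNReal.ofReal_ne_top, mul_one]
                · simp [hx]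
            _ ≤ G := by
                rw [lintegral_mul_const' _ _ (by finiteness)]
                exact mul_le_mul_left hw _
      _ ≤ G ^ (k + 1) := by
          rw [lintegral_mul_const' _ _ hGt, pow_succ]
          exact mul_le_mul_left
            (lintegral_volInv_le hA0 hf hA ha hr0 hr hjd hm hmβ s₀ k (by omega)) _

/-- The bound on the moments of the smoothed density. -/
lemma qd_moment_le [NeZero d] {β n : ℕ} {A : ℝ≥0∞} (hA0 : A ≠ ⊤) (hA1 : A ≠ 0) {f : Vec d → ℝ≥0∞}
    (hf : Measurable f) (hA : Mor β A f) {a : Vec d} (ha : ‖a‖ = 1) {r : ℝ} (hr0 : 0 < r)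
    (hr : r ≤ 2) (hnd : n + 2 ≤ d) (hm : 1 ≤ m) (hmβ : n + m + 1 ≤ β) {δ : ℝ} (hδ : 0 < δ) :
    ∫⁻ p, qd (m := m) a r f δ p ^ (n + 1) ∂((rows d m).prod volume) ≤
      A * ENNReal.ofReal r ^ β *
        (2 ^ (6 * d + m + 4) * A * ENNReal.ofReal r ^ β * (ENNReal.ofReal r)⁻¹ ^ m) ^ n := by
  refine (lintegral_qd_pow_le hf (Nat.pos_of_ne_zero (NeZero.ne d)) a r hδ n).trans ?_
  set G : ℝ≥0∞ := 2 ^ (6 * d + m + 4) * A * ENNReal.ofReal r ^ β * (ENNReal.ofReal r)⁻¹ ^ m
  have hR0 : ENNReal.ofReal r ≠ 0 := (ENNReal.ofReal_pos.2 hr0).ne'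
  have hGt : G ≠ ⊤ := by
    simp only [G]
    finiteness
  have hG0 : G ≠ 0 := by simp [G, hA1, hR0]
  have hmp := (measurePreserving_piFinSuccAbove (fun _ : Fin (n + 1) => sph d) 0).symm
  rw [← hmp.lintegral_comp_emb (MeasurableEquiv.measurableEmbedding _)]
  refine (lintegral_prod_le _).trans ?_
  set fc := (closedBall a r).indicator f with hfc
  calc ∫⁻ x, ∫⁻ w, (∏ i, fc ((MeasurableEquiv.piFinSuccAbove (fun _ : Fin (n + 1) => Vec d) 0).symm
          (x, w) i)) *
        volInv n (fun i => (MeasurableEquiv.piFinSuccAbove (fun _ : Fin (n + 1) => Vec d) 0).symm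
          (x, w) i.succ -
          (MeasurableEquiv.piFinSuccAbove (fun _ : Fin (n + 1) => Vec d) 0).symm (x, w) 0) ^ m
        ∂(Measure.pi fun _ => sph d) ∂(sph d)
      ≤ ∫⁻ x, fc x * G ^ n ∂(sph d) := by
        refine lintegral_mono fun x => ?_
        by_cases hx : x ∈ closedBall a r
        · by_cases htop : fc x = ⊤
          · rw [htop, ENNReal.top_mul (pow_ne_zero _ hG0)]; exact le_top
          · calc _ = ∫⁻ w, fc x * ((∏ i, fc (w i)) * volInv n (fun i => w i - x) ^ m)
                    ∂(Measure.pi fun _ => sph d) := by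
                  refine lintegral_congr fun w => ?_
                  simp [MeasurableEquiv.piFinSuccAbove, Fin.prod_univ_succ, Fin.consEquiv,
                    mul_assoc]
              _ ≤ _ := by
                  rw [lintegral_const_mul' _ _ htop]
                  exact mul_le_mul_right
                    (lintegral_volInv_le hA0 hf hA ha hr0 hr hnd hm hmβ x n (Nat.le_succ n)) _
        · refine le_trans (le_of_eq ((lintegral_congr fun w => ?_).trans lintegral_zero)) bot_le
          simp [MeasurableEquiv.piFinSuccAbove, Fin.prod_univ_succ, Fin.consEquiv, fc, hx]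
    _ ≤ _ := by
        rw [lintegral_mul_const' _ _ (ENNReal.pow_ne_top hGt),
          lintegral_indicator isClosed_closedBall.measurableSet]
        exact mul_le_mul_left (hA a ha r hr0 hr) _

lemma pushMass_mono {f : Vec d → ℝ≥0∞} (a : Vec d) (r : ℝ)
    {D U : Set ((Fin m → Vec d) × (Fin m → ℝ))} (h : D ⊆ U) :
    pushMass a r f D ≤ pushMass a r f U :=
  lintegral_mono fun X => lintegral_mono fun s => mul_le_mul_right
    (Set.indicator_le_indicator_of_subset h (fun _ => bot_le) _) _

/-- The mass sent to an arbitrary set. -/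
lemma pushMass_le [NeZero d] (hm : 0 < m) (hmd : m ≤ d) (hdm : d ≤ 16 * m)
    {f : Vec d → ℝ≥0∞} (hf : Measurable f) {a : Vec d} (ha : ‖a‖ = 1) {r : ℝ}
    (hr0 : 0 < r) (hr : r ≤ 2) {n : ℕ} {J t : ℝ≥0∞} (ht0 : t ≠ 0) (ht : t ≠ ⊤)
    (hJ : ∀ δ : ℝ, 0 < δ → ∫⁻ p, qd a r f δ p ^ (n + 1) ∂((rows d m).prod volume) ≤ J)
    (D : Set ((Fin m → Vec d) × (Fin m → ℝ))) :
    pushMass a r f D ≤ t * refM a r D + t⁻¹ ^ n * J := by
  have : IsFiniteMeasure (refM (m := m) a r) :=
    ⟨(refM_univ_le hm hmd hdm a hr0).trans_lt ENNReal.ofReal_lt_top⟩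
  refine ENNReal.le_of_forall_pos_le_add fun e he _ => ?_
  obtain ⟨U, hDU, hU, hle⟩ := D.exists_isOpen_le_add (refM (m := m) a r)
    (ε := (e : ℝ≥0∞) / t) (ENNReal.div_ne_zero.2 ⟨by simpa using he.ne', ht⟩)
  refine (pushMass_mono a r hDU).trans
    ((pushMass_open_le hf ha hr (hm.trans_le hmd) ht0 ht hJ hU).trans ?_)
  calc t * refM a r U + t⁻¹ ^ n * J
      ≤ t * (refM a r D + e / t) + t⁻¹ ^ n * J := by gcongr
    _ = _ := by rw [mul_add, ENNReal.mul_div_cancel ht0 ht]; abel

/-- One block: if all value functions after the block have cap integrals at most `A ρ ^ β`, those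
before it have cap integrals at most `2 ^ (q + 10 d) A ρ ^ β`. -/
lemma block_step [NeZero d] {S : Type*} [Fintype S] [MeasurableSpace S]
    [MeasurableSingletonClass S] {β n q : ℕ} {A : ℝ≥0∞} (hA0 : A ≠ ⊤) (hA1 : A ≠ 0)
    (hm : 1 ≤ m) (hmd : 8 * m ≤ d) (hdm : d ≤ 16 * m) (hnd : n + 2 ≤ d) (hβ : n + m + 1 ≤ β)
    (hcard : Fintype.card S ≤ 2 ^ (q * n)) {f : S → Vec d → ℝ≥0∞} (hf : ∀ z, Measurable (f z))
    (hA : ∀ z, Mor β A (f z)) (F : (Fin m → Vec d) × (Fin m → ℝ) → S) (hF : Measurable F) :
    Mor β (A * 2 ^ (q + 10 * d)) (fun s => ∫⁻ X, f (F (X, rX X s)) s ∂(rows d m)) := by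
  classical
  intro a ha r hr0 hr
  set R := ENNReal.ofReal r with hR
  have hR0 : R ≠ 0 := (ENNReal.ofReal_pos.2 hr0).ne'
  have hRt : R ≠ ⊤ := ENNReal.ofReal_ne_top
  let E : S → Set ((Fin m → Vec d) × (Fin m → ℝ)) := fun z => F ⁻¹' {z}
  have hE : ∀ z, MeasurableSet (E z) := fun z => hF (measurableSet_singleton z)
  set B : ℝ≥0∞ := 2 ^ (6 * d + m + 4) * A * R ^ β with hB
  have hB0 : B ≠ 0 := by simp [B, hA1, hR0]
  have hBt : B ≠ ⊤ := by simp only [B]; finiteness
  set J : ℝ≥0∞ := A * R ^ β * (B * R⁻¹ ^ m) ^ n with hJ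
  set t : ℝ≥0∞ := 2 ^ q * (B * R⁻¹ ^ m) with ht
  have hBR0 : B * R⁻¹ ^ m ≠ 0 := by simp [hB0, hRt]
  have hBRt : B * R⁻¹ ^ m ≠ ⊤ := by finiteness
  have ht0 : t ≠ 0 := by simp [t, hB0, hRt]
  have htt : t ≠ ⊤ := by simp only [t]; finiteness
  have hsum : ∀ X s, (closedBall a r).indicator (fun s => f (F (X, rX X s)) s) s =
      ∑ z, (closedBall a r).indicator (f z) s * (E z).indicator 1 (X, rX X s) := by
    intro X s
    rw [Finset.sum_eq_single (F (X, rX X s))
      (fun z _ hz => by simp [E, Ne.symm hz]) (by simp)]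
    by_cases hs : s ∈ closedBall a r <;> simp [hs, E]
  have hmz : ∀ z, Measurable fun w : (Fin m → Vec d) × Vec d =>
      (closedBall a r).indicator (f z) w.2 * (E z).indicator 1 (w.1, rX w.1 w.2) := by
    intro z
    have h1 : Measurable fun w : (Fin m → Vec d) × Vec d => (w.1, rX w.1 w.2) :=
      measurable_fst.prodMk (measurable_rX' measurable_fst measurable_snd)
    exact ((measurable_fc a r (hf z)).comp measurable_snd).mul
      ((measurable_one.indicator (hE z)).comp h1)
  have hmz' : ∀ z X, Measurable fun s : Vec d =>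
      (closedBall a r).indicator (f z) s * (E z).indicator 1 (X, rX X s) := by
    intro z X
    have h1 : Measurable fun s : Vec d => (X, rX X s) :=
      measurable_const.prodMk (measurable_rX' measurable_const measurable_id)
    exact (measurable_fc a r (hf z)).mul ((measurable_one.indicator (hE z)).comp h1)
  have hrefsum : ∑ z, refM a r (E z) ≤ ENNReal.ofReal ((20 * r) ^ m) := by
    refine le_trans (le_of_eq ?_) (refM_univ_le (by omega) (by omega) hdm a hr0)
    rw [sum_measure_preimage_singleton _ fun z _ => hE z]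
    simp
  calc ∫⁻ s in closedBall a r, ∫⁻ X, f (F (X, rX X s)) s ∂(rows d m) ∂(sph d)
      = ∫⁻ s, ∫⁻ X, ∑ z, (closedBall a r).indicator (f z) s * (E z).indicator 1 (X, rX X s)
          ∂(rows d m) ∂(sph d) := by
        rw [← lintegral_indicator isClosed_closedBall.measurableSet]
        refine lintegral_congr fun s => ?_
        by_cases hs : s ∈ closedBall a r
        · rw [Set.indicator_of_mem hs]
          refine lintegral_congr fun X => ?_
          rw [← hsum X s, Set.indicator_of_mem hs]
        · simp [hs]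
    _ = ∫⁻ X, ∫⁻ s, ∑ z, (closedBall a r).indicator (f z) s * (E z).indicator 1 (X, rX X s)
          ∂(sph d) ∂(rows d m) :=
        lintegral_lintegral_swap
          ((Finset.measurable_sum _ fun z _ => hmz z).comp measurable_swap).aemeasurable
    _ = ∑ z, pushMass a r (f z) (E z) := by
        simp only [pushMass]
        rw [← lintegral_finsetSum _ fun z _ => (hmz z).lintegral_prod_right']
        refine lintegral_congr fun X => ?_
        exact lintegral_finsetSum _ fun z _ => hmz' z X
    _ ≤ ∑ z, (t * refM a r (E z) + t⁻¹ ^ n * J) := by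
        refine Finset.sum_le_sum fun z _ => pushMass_le (by omega) (by omega) hdm (hf z) ha hr0 hr
          ht0 htt (fun δ hδ => ?_) (E z)
        exact qd_moment_le hA0 hA1 (hf z) (hA z) ha hr0 hr hnd hm hβ hδ
    _ ≤ t * ENNReal.ofReal ((20 * r) ^ m) + (2 ^ (q * n) : ℕ) * (t⁻¹ ^ n * J) := by
        rw [Finset.sum_add_distrib, ← Finset.mul_sum, Finset.sum_const, nsmul_eq_mul]
        refine add_le_add (mul_le_mul_right hrefsum _) (mul_le_mul_left ?_ _)
        exact Nat.cast_le.2 hcard
    _ = 2 ^ q * 20 ^ m * B + A * R ^ β := by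
        congr 1
        · rw [ht, ENNReal.ofReal_pow (by positivity), ENNReal.ofReal_mul (by norm_num), ← hR,
            ENNReal.ofReal_ofNat]
          calc 2 ^ q * (B * R⁻¹ ^ m) * (20 * R) ^ m
              = 2 ^ q * 20 ^ m * B * (R⁻¹ * R) ^ m := by ring
            _ = _ := by rw [ENNReal.inv_mul_cancel hR0 hRt, one_pow, mul_one]
        · rw [ht, hJ, ENNReal.mul_inv (Or.inr hBRt) (Or.inr hBR0)]
          push_cast
          calc (2 : ℝ≥0∞) ^ (q * n) *
                ((((2 : ℝ≥0∞) ^ q)⁻¹ * (B * R⁻¹ ^ m)⁻¹) ^ n * (A * R ^ β * (B * R⁻¹ ^ m) ^ n))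
              = A * R ^ β * ((((2 : ℝ≥0∞) ^ q)⁻¹ * 2 ^ q) ^ n *
                  ((B * R⁻¹ ^ m)⁻¹ * (B * R⁻¹ ^ m)) ^ n) := by rw [pow_mul]; ring
            _ = _ := by
                rw [ENNReal.inv_mul_cancel (by simp) (by finiteness),
                  ENNReal.inv_mul_cancel hBR0 hBRt]
                simp
    _ ≤ A * 2 ^ (q + 10 * d) * R ^ β := by
        have h20 : (20 : ℝ≥0∞) ^ m ≤ 2 ^ (5 * m) := by
          rw [pow_mul]; exact pow_le_pow_left' (by norm_num) m
        calc 2 ^ q * 20 ^ m * B + A * R ^ β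
            ≤ 2 ^ q * 2 ^ (5 * m) * B + 2 ^ q * 2 ^ (5 * m) * B := by
              refine add_le_add (mul_le_mul_left (mul_le_mul_right h20 _) _) ?_
              calc A * R ^ β = 1 * (1 * A * R ^ β) := by ring
                _ ≤ _ := mul_le_mul' (one_le_mul (one_le_pow₀ one_le_two) (one_le_pow₀ one_le_two))
                    (mul_le_mul_left (mul_le_mul_left (one_le_pow₀ one_le_two) _) _)
          _ = A * 2 ^ (q + 5 * m + 1 + (6 * d + m + 4)) * R ^ β := by
              rw [hB]; ring
          _ ≤ _ := mul_le_mul_left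
              (mul_le_mul_right (pow_le_pow_right₀ one_le_two (by omega)) _) _

end Vale.Agent.P309
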