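import Mathlib
import Vale.Agent.P309.Block

/-! Value functions of a chain with finitely many states reading Gaussian rows and their labels. -/

namespace Vale.Agent.P309

open MeasureTheory ProbabilityTheory Metric Set
open scoped RealInnerProductSpace ENNReal

variable {d : ℕ} {S : Type*}

lemma measurable_finite_comp [Countable S] [MeasurableSpace S] [MeasurableSingletonClass S]
    {α β γ : Type*} [MeasurableSpace α] [MeasurableSpace β] [MeasurableSpace γ]
    {F : S → β → γ} (hF : ∀ z, Measurable (F z)) {h : α → S} (hh : Measurable h) {u : α → β}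
    (hu : Measurable u) : Measurable fun x => F (h x) (u x) :=
  (measurable_from_prod_countable_left (f := fun p : β × S => F p.2 p.1) hF).comp (hu.prodMk hh)

/-- The state after reading the `j` pairs `(X i, y i)`, starting at index `i₀` in state `z`. -/
def fold (g : ℕ → S → Vec d × ℝ → S) (i₀ : ℕ) (z : S) :
    (j : ℕ) → (Fin j → Vec d) → (Fin j → ℝ) → S
  | 0, _, _ => z
  | j + 1, X, y =>
    g (i₀ + j) (fold g i₀ z j (Fin.init X) (Fin.init y)) (X (Fin.last j), y (Fin.last j))

/-- The value, at signal `s`, of being in state `z` at index `i` with `n` more rows to read. -/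
noncomputable def valueFn (g : ℕ → S → Vec d × ℝ → S) (tgt : S → Vec d → ℝ≥0∞) :
    ℕ → ℕ → S → Vec d → ℝ≥0∞
  | 0, _, z, s => tgt z s
  | n + 1, i, z, s => ∫⁻ x, valueFn g tgt n (i + 1) (g i z (x, ⟪x, s⟫)) s ∂(stdGaussian (Vec d))

variable [Fintype S] [MeasurableSpace S] [MeasurableSingletonClass S]
variable {g : ℕ → S → Vec d × ℝ → S} {tgt : S → Vec d → ℝ≥0∞}

lemma measurable_fold_param {α : Type*} [MeasurableSpace α]
    {G : α → ℕ → S → Vec d × ℝ → S}
    (hG : ∀ i z, Measurable fun p : α × (Vec d × ℝ) => G p.1 i z p.2) (i₀ : ℕ) {z₀ : α → S}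
    (hz : Measurable z₀) : ∀ (j : ℕ) {X : α → Fin j → Vec d} {y : α → Fin j → ℝ},
    Measurable X → Measurable y → Measurable fun a => fold (G a) i₀ (z₀ a) j (X a) (y a)
  | 0, _, _, _, _ => by simpa [fold] using hz
  | j + 1, X, y, hX, hy => by
    have hXi : Measurable fun a => Fin.init (X a) :=
      measurable_pi_lambda _ fun i => (measurable_pi_apply _).comp hX
    have hyi : Measurable fun a => Fin.init (y a) :=
      measurable_pi_lambda _ fun i => (measurable_pi_apply _).comp hy
    have hp := measurable_fold_param hG i₀ hz j hXi hyi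
    have hu : Measurable fun a => (a, (X a (Fin.last j), y a (Fin.last j))) :=
      measurable_id.prodMk
        (((measurable_pi_apply _).comp hX).prodMk ((measurable_pi_apply _).comp hy))
    exact measurable_finite_comp (F := fun z (p : α × (Vec d × ℝ)) => G p.1 (i₀ + j) z p.2)
      (fun z => hG _ z) hp hu

lemma measurable_fold {α : Type*} [MeasurableSpace α] (hg : ∀ i z, Measurable (g i z)) (i₀ : ℕ)
    (z : S) (j : ℕ) {X : α → Fin j → Vec d} {y : α → Fin j → ℝ} (hX : Measurable X)
    (hy : Measurable y) : Measurable fun a => fold g i₀ z j (X a) (y a) :=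
  measurable_fold_param (G := fun _ => g) (fun i z => (hg i z).comp measurable_snd) i₀
    measurable_const j hX hy

lemma measurable_valueFn (hg : ∀ i z, Measurable (g i z)) (ht : ∀ z, Measurable (tgt z)) :
    ∀ n i z, Measurable (valueFn g tgt n i z)
  | 0, i, z => ht z
  | n + 1, i, z => by
    have h1 : Measurable fun p : Vec d × Vec d => g i z (p.2, ⟪p.2, p.1⟫) :=
      (hg i z).comp (measurable_snd.prodMk (measurable_snd.inner measurable_fst))
    exact (measurable_finite_comp (F := fun z' (s : Vec d) => valueFn g tgt n (i + 1) z' s)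
      (fun z' => measurable_valueFn hg ht n (i + 1) z') h1 measurable_fst).lintegral_prod_right'

/-- Reading `a` rows first. -/
lemma valueFn_add (hg : ∀ i z, Measurable (g i z)) (ht : ∀ z, Measurable (tgt z)) :
    ∀ a n i z s, valueFn g tgt (n + a) i z s =
      ∫⁻ X, valueFn g tgt n (i + a) (fold g i z a X (rX X s)) s ∂(rows d a)
  | 0, n, i, z, s => by simp [fold]
  | a + 1, n, i, z, s => by
    rw [show n + (a + 1) = (n + 1) + a by omega, valueFn_add hg ht a (n + 1) i z s]
    simp only [valueFn]
    set e := MeasurableEquiv.piFinSuccAbove (fun _ : Fin (a + 1) => Vec d) (Fin.last a)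
    have hmp : MeasurePreserving e (rows d (a + 1)) ((stdGaussian (Vec d)).prod (rows d a)) :=
      measurePreserving_piFinSuccAbove (fun _ : Fin (a + 1) => stdGaussian (Vec d)) (Fin.last a)
    let e₂ : (Fin a → Vec d) × Vec d ≃ᵐ (Fin (a + 1) → Vec d) :=
      MeasurableEquiv.prodComm.trans e.symm
    have hmp₂ : MeasurePreserving e₂ ((rows d a).prod (stdGaussian (Vec d))) (rows d (a + 1)) :=
      hmp.symm.comp (Measure.measurePreserving_swap (μ := rows d a) (ν := stdGaussian (Vec d)))
    have hrY : Measurable fun X : Fin (a + 1) → Vec d => rX X s :=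
      measurable_rX' measurable_id measurable_const
    have hm : Measurable fun X : Fin (a + 1) → Vec d =>
        valueFn g tgt n (i + (a + 1)) (fold g i z (a + 1) X (rX X s)) s :=
      measurable_finite_comp (F := fun z' (s : Vec d) => valueFn g tgt n (i + (a + 1)) z' s)
        (fun z' => measurable_valueFn hg ht n _ z')
        (measurable_fold hg i z (a + 1) measurable_id hrY) measurable_const
    have hm2 : Measurable fun w : (Fin a → Vec d) × Vec d =>
        valueFn g tgt n (i + (a + 1)) (fold g i z (a + 1) (e₂ w) (rX (e₂ w) s)) s :=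
      hm.comp e₂.measurable
    rw [← hmp₂.lintegral_comp hm, lintegral_prod _ hm2.aemeasurable]
    refine lintegral_congr fun X => lintegral_congr fun x => ?_
    have hins : e₂ (X, x) = Fin.snoc X x := by
      simp [e₂, e, MeasurableEquiv.piFinSuccAbove, MeasurableEquiv.prodComm, Fin.snocEquiv]
    rw [hins, fold]
    have h1 : Fin.init (rX (Fin.snoc X x : Fin (a + 1) → Vec d) s) = rX X s := by
      funext t; simp [rX, Fin.init]
    have h2 : rX (Fin.snoc X x : Fin (a + 1) → Vec d) s (Fin.last a) = ⟪x, s⟫ := by simp [rX]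
    rw [h1, h2, Fin.init_snoc, Fin.snoc_last, add_assoc]

omit [Fintype S] [MeasurableSpace S] [MeasurableSingletonClass S] in
/-- A chain which is frozen keeps its value. -/
lemma valueFn_frozen : ∀ n i, (∀ j, i ≤ j → ∀ z p, g j z p = z) →
    ∀ z s, valueFn g tgt n i z s = tgt z s
  | 0, _, _, _, _ => rfl
  | n + 1, i, h, z, s => by
    simp only [valueFn, h i le_rfl,
      valueFn_frozen n (i + 1) (fun j hj => h j (by omega)) z s, lintegral_const, measure_univ,
      mul_one]

/-- Iterating the block step. -/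
lemma mor_valueFn [NeZero d] {m n β q : ℕ} {A : ℝ≥0∞} (hA0 : A ≠ ⊤) (hA1 : A ≠ 0)
    (hm : 1 ≤ m) (hmd : 8 * m ≤ d) (hdm : d ≤ 16 * m) (hnd : n + 2 ≤ d) (hβ : n + m + 1 ≤ β)
    (hcard : Fintype.card S ≤ 2 ^ (q * n)) (hg : ∀ i z, Measurable (g i z))
    (ht : ∀ z, Measurable (tgt z)) (hA : ∀ z, Mor β A (tgt z)) :
    ∀ k i z, Mor β (A * (2 ^ (q + 10 * d)) ^ k) (valueFn g tgt (k * m) i z)
  | 0, i, z => by
    have h : valueFn g tgt (0 * m) i z = tgt z := by rw [zero_mul]; rfl
    rw [h, pow_zero, mul_one]
    exact hA z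
  | k + 1, i, z => by
    have h : valueFn g tgt ((k + 1) * m) i z = fun s =>
        ∫⁻ X, valueFn g tgt (k * m) (i + m) (fold g i z m X (rX X s)) s ∂(rows d m) := by
      funext s
      rw [Nat.succ_mul, valueFn_add hg ht m (k * m) i z s]
    rw [h, pow_succ, ← mul_assoc]
    exact block_step (ENNReal.mul_ne_top hA0 (by finiteness))
      (mul_ne_zero hA1 (pow_ne_zero _ (pow_ne_zero _ two_ne_zero))) hm hmd hdm hnd hβ hcard
      (fun z' => measurable_valueFn hg ht _ _ z')
      (fun z' => mor_valueFn hA0 hA1 hm hmd hdm hnd hβ hcard hg ht hA k (i + m) z')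
      (fun p => fold g i z m p.1 p.2) (measurable_fold hg i z m measurable_fst measurable_snd)

end Vale.Agent.P309
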