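import Mathlib
import Vale.Agent.P309.Defs
import Vale.Agent.P309.Chain

/-! The lower bound on the horizon of a learner with `M` bits of memory. -/

namespace Vale.Agent.P309

open MeasureTheory ProbabilityTheory Metric Set
open scoped RealInnerProductSpace ENNReal

variable {d M : ℕ}

/-- The chain of a learner, frozen from index `τ` on; the second component records stopping. -/
noncomputable def Learner.chain (L : Learner d M) (τ : ℕ) (ω : L.Seed) (i : ℕ)
    (p : Fin (2 ^ M) × Bool) (u : Vec d × ℝ) : Fin (2 ^ M) × Bool :=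
  if i < τ then (if p.2 then p else (L.step ω i p.1 u, L.stop ω i p.1 u)) else p

lemma Learner.chain_meas (L : Learner d M) (τ i : ℕ) (p : Fin (2 ^ M) × Bool) :
    Measurable fun q : L.Seed × (Vec d × ℝ) => L.chain τ q.1 i p q.2 := by
  simp only [Learner.chain]
  by_cases h : i < τ
  · by_cases hp : p.2
    · simp only [h, hp, if_true]; exact measurable_const
    · simp only [h, hp, if_true, Bool.false_eq_true, if_false]
      exact (L.step_meas i p.1).prodMk (L.stop_meas i p.1)
  · simp only [h, if_false]; exact measurable_const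

lemma Learner.chain_meas' (L : Learner d M) (τ : ℕ) (ω : L.Seed) (i : ℕ)
    (p : Fin (2 ^ M) × Bool) : Measurable (L.chain τ ω i p) :=
  (L.chain_meas τ i p).comp measurable_prodMk_left

lemma Learner.fold_eq_run (L : Learner d M) (T τ : ℕ) (ω : L.Seed) (s : Dir d)
    (x : Fin T → Vec d) : ∀ k (hk : k ≤ T),
    fold (L.chain τ ω) 0 (L.init ω, false) k (fun i => x (Fin.castLE hk i))
        (fun i => ⟪x (Fin.castLE hk i), (s : Vec d)⟫) =
      ((L.run T ω s x (min k τ)).1, (L.run T ω s x (min k τ)).2.2)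
  | 0, _ => by simp [fold, Learner.run]
  | k + 1, hk => by
    rw [fold]
    have ih := L.fold_eq_run T τ ω s x k (by omega)
    have h0 : Fin.init (fun i : Fin (k + 1) => x (Fin.castLE hk i)) =
        fun i : Fin k => x (Fin.castLE (by omega) i) := rfl
    have h1 : Fin.init (fun i : Fin (k + 1) => ⟪x (Fin.castLE hk i), (s : Vec d)⟫) =
        fun i : Fin k => ⟪x (Fin.castLE (by omega) i), (s : Vec d)⟫ := rfl
    rw [h0, h1, ih, zero_add, Learner.chain]
    by_cases hkτ : k < τ
    · rw [if_pos hkτ, min_eq_left hkτ.le, min_eq_left (Nat.succ_le_iff.2 hkτ)]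
      conv_rhs => rw [Learner.run]
      have hkT : k < T := by omega
      simp only [dif_pos hkT]
      by_cases hp : (L.run T ω s x k).2.2
      · simp only [hp, if_true]
      · simp only [hp, Bool.false_eq_true, if_false]
        rfl
    · rw [if_neg hkτ, min_eq_right (not_lt.1 hkτ), min_eq_right (by omega)]

lemma Learner.run_index (L : Learner d M) (T : ℕ) (ω : L.Seed) (s : Dir d)
    (x : Fin T → Vec d) : ∀ k, k ≤ T →
    (L.run T ω s x k).2.1 ≤ k ∧
      (L.run T ω s x (L.run T ω s x k).2.1).1 = (L.run T ω s x k).1 ∧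
      ((L.run T ω s x k).2.2 = false → (L.run T ω s x k).2.1 = k)
  | 0, _ => by simp [Learner.run]
  | k + 1, hk => by
    obtain ⟨h1, h2, h3⟩ := L.run_index T ω s x k (by omega)
    have hkT : k < T := by omega
    by_cases hp : (L.run T ω s x k).2.2
    · have h : L.run T ω s x (k + 1) = L.run T ω s x k := by
        conv_lhs => rw [Learner.run]
        simp only [dif_pos hkT, hp, if_true]
      rw [h]
      exact ⟨by omega, h2, fun hc => absurd hp (by simp [hc])⟩
    · have h : (L.run T ω s x (k + 1)).2.1 = k + 1 := by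
        conv_lhs => rw [Learner.run]
        simp only [dif_pos hkT, hp, Bool.false_eq_true, if_false]
      rw [h]
      exact ⟨le_rfl, rfl, fun _ => rfl⟩

lemma norm_sub_le_of_arccos_le {E : Type*} [NormedAddCommGroup E] [InnerProductSpace ℝ E]
    {u v : E} (hu : ‖u‖ = 1) (hv : ‖v‖ = 1) {ε : ℝ} (hε : 0 ≤ ε)
    (h : Real.arccos ⟪u, v⟫ ≤ ε) : ‖v - u‖ ≤ ε := by
  have hab : |⟪u, v⟫| ≤ 1 := by simpa [hu, hv] using abs_real_inner_le_norm u v
  obtain ⟨h1, h2⟩ := abs_le.1 hab
  have h3 := Real.one_sub_sq_div_two_le_cos (x := Real.arccos ⟪u, v⟫)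
  rw [Real.cos_arccos h1 h2] at h3
  have h4 : ‖v - u‖ ^ 2 = 2 - 2 * ⟪u, v⟫ := by
    rw [norm_sub_sq_real, hu, hv, real_inner_comm]; ring
  have h5 : Real.arccos ⟪u, v⟫ ^ 2 ≤ ε ^ 2 := pow_le_pow_left₀ (Real.arccos_nonneg _) h 2
  exact le_of_pow_le_pow_left₀ two_ne_zero hε (by linarith)

lemma mor_cap [NeZero d] {β γ : ℕ} (hsum : β + γ = d - 1) {c : Vec d} (hc : ‖c‖ = 1) {ε : ℝ}
    (hε : 0 < ε) :
    Mor β (cd d * ENNReal.ofReal ε ^ γ) ((closedBall c ε).indicator 1) := by
  intro b hb ρ hρ _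
  rw [lintegral_indicator_one isClosed_closedBall.measurableSet,
    Measure.restrict_apply isClosed_closedBall.measurableSet, mul_assoc]
  rcases le_total ρ ε with h | h
  · refine (measure_mono Set.inter_subset_right).trans ((sph_cap_le hb hρ).trans ?_)
    refine mul_le_mul_right ?_ _
    rw [← hsum, pow_add, mul_comm]
    exact mul_le_mul_left (pow_le_pow_left' (ENNReal.ofReal_le_ofReal h) γ) _
  · refine (measure_mono Set.inter_subset_left).trans ((sph_cap_le hc hε).trans ?_)
    refine mul_le_mul_right ?_ _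
    rw [← hsum, pow_add, mul_comm]
    exact mul_le_mul_right (pow_le_pow_left' (ENNReal.ofReal_le_ofReal h) β) _

lemma cd_mul_inv_sph_univ_le [NeZero d] : (sph d univ)⁻¹ * cd d ≤ 16 ^ d := by
  obtain ⟨b, hb⟩ : ∃ b : Vec d, ‖b‖ = 1 :=
    ⟨EuclideanSpace.single (⟨0, Nat.pos_of_ne_zero (NeZero.ne d)⟩ : Fin d) (1 : ℝ), by simp⟩
  have h := le_sph_cap hb two_pos le_rfl
  have h2 : cd d ≤ 16 ^ d * sph d univ := by
    refine le_trans ?_ (h.trans (mul_le_mul_right (measure_mono (Set.subset_univ _)) _))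
    calc cd d = cd d * 1 := (mul_one _).symm
      _ ≤ _ := mul_le_mul_right (one_le_pow₀ (by simp)) _
  rw [mul_comm, ← div_eq_mul_inv]
  exact ENNReal.div_le_of_le_mul h2

instance : SFinite (unifDir d) := by unfold unifDir; infer_instance

/-- The uniform measure on the sphere is a probability measure. -/
instance [NeZero d] : IsProbabilityMeasure (unifDir d) := by
  have h2 : (volume : Measure (Vec d)).toSphere univ = sph d univ := by
    rw [sph, Measure.map_apply measurable_subtype_coe MeasurableSet.univ, Set.preimage_univ]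
  have h0 : sph d univ ≠ 0 := fun h => by
    have := cd_mul_inv_sph_univ_le (d := d)
    rw [h, ENNReal.inv_zero, ENNReal.top_mul cd_ne_zero] at this
    exact absurd this (by simp)
  constructor
  rw [unifDir, Measure.smul_apply, smul_eq_mul, h2,
    ENNReal.inv_mul_cancel h0 (measure_ne_top _ _)]

/-- For a fixed seed: the probability that a chain, frozen from index `T` on, ends within `ε` of
the signal. -/
lemma chain_prob_le [NeZero d] {S : Type*} [Fintype S] [MeasurableSpace S]
    [MeasurableSingletonClass S] {g : ℕ → S → Vec d × ℝ → S} (hg : ∀ i z, Measurable (g i z))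
    {out : S → Vec d} (hout : ∀ z, ‖out z‖ = 1) (z₀ : S) {m n β γ q k T : ℕ} (hm : 1 ≤ m)
    (hmd : 8 * m ≤ d) (hdm : d ≤ 16 * m) (hnd : n + 2 ≤ d) (hβ : n + m + 1 ≤ β)
    (hsum : β + γ = d - 1) (hcard : Fintype.card S ≤ 2 ^ (q * n)) (hk : T ≤ k * m)
    (hfrz : ∀ i, 0 + T ≤ i → ∀ z p, g i z p = z) {ε : ℝ} (hε : 0 < ε) :
    ((unifDir d).prod (rows d T))
      {p | (p.1 : Vec d) ∈ closedBall (out (fold g 0 z₀ T p.2 (rX p.2 (p.1 : Vec d)))) ε} ≤
      16 ^ d * ENNReal.ofReal ε ^ γ * (2 ^ (q + 10 * d)) ^ k * 2 ^ β := by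
  let tgt : S → Vec d → ℝ≥0∞ := fun z => (closedBall (out z) ε).indicator 1
  have ht : ∀ z, Measurable (tgt z) := fun z =>
    measurable_one.indicator isClosed_closedBall.measurableSet
  have hmor := mor_valueFn (g := g) (tgt := tgt) (A := cd d * ENNReal.ofReal ε ^ γ)
    (ENNReal.mul_ne_top cd_ne_top (by finiteness))
    (mul_ne_zero cd_ne_zero (pow_ne_zero _ (ENNReal.ofReal_pos.2 hε).ne')) hm hmd hdm hnd hβ
    hcard hg ht (fun z => mor_cap hsum (hout z) hε) k 0 z₀
  have hWm := measurable_valueFn hg ht (k * m) 0 z₀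
  have hWeq : ∀ s, valueFn g tgt (k * m) 0 z₀ s =
      ∫⁻ X, tgt (fold g 0 z₀ T X (rX X s)) s ∂(rows d T) := by
    intro s
    obtain ⟨j, hj⟩ : ∃ j, k * m = j + T := ⟨k * m - T, by omega⟩
    rw [hj, valueFn_add hg ht T j 0 z₀ s]
    exact lintegral_congr fun X => valueFn_frozen j (0 + T) hfrz _ s
  set W := valueFn g tgt (k * m) 0 z₀
  have hs : Measurable fun p : Dir d × (Fin T → Vec d) => (p.1 : Vec d) :=
    measurable_subtype_coe.comp measurable_fst
  have hF : Measurable fun p : Dir d × (Fin T → Vec d) =>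
      out (fold g 0 z₀ T p.2 (rX p.2 (p.1 : Vec d))) :=
    (measurable_of_countable out).comp
      (measurable_fold hg 0 z₀ T measurable_snd (measurable_rX' measurable_snd hs))
  simp only [mem_closedBall]
  rw [Measure.prod_apply (measurableSet_le (hs.dist hF) measurable_const)]
  have hrw : ∀ s : Dir d, rows d T (Prod.mk s ⁻¹' {p : Dir d × (Fin T → Vec d) |
      dist (p.1 : Vec d) (out (fold g 0 z₀ T p.2 (rX p.2 (p.1 : Vec d)))) ≤ ε}) =
      W (s : Vec d) := by
    intro s
    rw [hWeq]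
    have hFs : Measurable fun x : Fin T → Vec d => out (fold g 0 z₀ T x (rX x (s : Vec d))) :=
      (measurable_of_countable out).comp
        (measurable_fold hg 0 z₀ T measurable_id (measurable_rX' measurable_id measurable_const))
    have hm' : MeasurableSet
        {x : Fin T → Vec d | dist (s : Vec d) (out (fold g 0 z₀ T x (rX x (s : Vec d)))) ≤ ε} :=
      measurableSet_le (measurable_const.dist hFs) measurable_const
    simp only [Set.preimage_ofPred_eq]
    rw [← lintegral_indicator_one hm']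
    refine lintegral_congr fun x => ?_
    simp only [tgt, Set.indicator, Set.mem_ofPred_eq, mem_closedBall, Pi.one_apply]
  rw [lintegral_congr hrw, unifDir, lintegral_smul_measure, smul_eq_mul]
  have h1 : ∫⁻ s : Dir d, W s ∂(volume : Measure (Vec d)).toSphere = ∫⁻ s, W s ∂(sph d) := by
    rw [sph, lintegral_map hWm measurable_subtype_coe]
  have h2 : (volume : Measure (Vec d)).toSphere univ = sph d univ := by
    rw [sph, Measure.map_apply measurable_subtype_coe MeasurableSet.univ, Set.preimage_univ]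
  have h3 : ∫⁻ s, W s ∂(sph d) ≤ ∫⁻ s in closedBall (out z₀) 2, W s ∂(sph d) := by
    rw [← lintegral_indicator isClosed_closedBall.measurableSet]
    refine lintegral_mono_ae ?_
    filter_upwards [sph_compl_sphere (d := d)] with s hs
    rw [Set.indicator_of_mem]
    rw [mem_closedBall, dist_eq_norm]
    rw [mem_sphere_zero_iff_norm] at hs
    linarith [norm_sub_le s (out z₀), hout z₀]
  rw [h1, h2]
  calc (sph d univ)⁻¹ * ∫⁻ s, W s ∂(sph d)
      ≤ (sph d univ)⁻¹ * (cd d * ENNReal.ofReal ε ^ γ * (2 ^ (q + 10 * d)) ^ k *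
          ENNReal.ofReal 2 ^ β) :=
        mul_le_mul_right (h3.trans (hmor (out z₀) (hout z₀) 2 two_pos le_rfl)) _
    _ = (sph d univ)⁻¹ * cd d * ENNReal.ofReal ε ^ γ * (2 ^ (q + 10 * d)) ^ k * 2 ^ β := by
        rw [ENNReal.ofReal_ofNat]; ring
    _ ≤ _ := mul_le_mul_left (mul_le_mul_left (mul_le_mul_left cd_mul_inv_sph_univ_le _) _) _

/-- The probability of being within `ε` when exactly the first `τ` rows may change the state. -/
lemma Learner.prob_le [NeZero d] (L : Learner d M) {m n β γ q k T : ℕ} (hm : 1 ≤ m)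
    (hmd : 8 * m ≤ d) (hdm : d ≤ 16 * m) (hnd : n + 2 ≤ d) (hβ : n + m + 1 ≤ β)
    (hsum : β + γ = d - 1) (hq : M + 1 ≤ q * n) (hk : T ≤ k * m) {ε : ℝ} (hε : 0 < ε)
    (τ : ℕ) (hτ : τ ≤ T) :
    (L.law.prod ((unifDir d).prod (rows d T)))
      {p | (p.2.1 : Vec d) ∈ closedBall (L.out p.1 τ
        (fold (L.chain τ p.1) 0 (L.init p.1, false) T p.2.2 (rX p.2.2 (p.2.1 : Vec d))).1 : Vec d)
          ε} ≤
      16 ^ d * ENNReal.ofReal ε ^ γ * (2 ^ (q + 10 * d)) ^ k * 2 ^ β := by
  have hs : Measurable fun p : L.Seed × (Dir d × (Fin T → Vec d)) => (p.2.1 : Vec d) :=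
    measurable_subtype_coe.comp measurable_snd.fst
  have hfold : Measurable fun p : L.Seed × (Dir d × (Fin T → Vec d)) =>
      fold (L.chain τ p.1) 0 (L.init p.1, false) T p.2.2 (rX p.2.2 (p.2.1 : Vec d)) := by
    have hG : ∀ i z, Measurable fun w : (L.Seed × (Dir d × (Fin T → Vec d))) × (Vec d × ℝ) =>
        L.chain τ w.1.1 i z w.2 := fun i z => by
      have h1 : Measurable fun w : (L.Seed × (Dir d × (Fin T → Vec d))) × (Vec d × ℝ) =>
          (w.1.1, w.2) := measurable_fst.fst.prodMk measurable_snd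
      exact (L.chain_meas τ i z).comp h1
    exact measurable_fold_param (G := fun p : L.Seed × (Dir d × (Fin T → Vec d)) => L.chain τ p.1)
      hG 0 ((L.init_meas.comp measurable_fst).prodMk measurable_const) T measurable_snd.snd
      (measurable_rX' measurable_snd.snd hs)
  have hPm : Measurable fun p : L.Seed × (Dir d × (Fin T → Vec d)) =>
      (L.out p.1 τ
        (fold (L.chain τ p.1) 0 (L.init p.1, false) T p.2.2 (rX p.2.2 (p.2.1 : Vec d))).1 : Vec d) :=
    measurable_finite_comp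
      (F := fun (z : Fin (2 ^ M) × Bool) (ω : L.Seed) => (L.out ω τ z.1 : Vec d))
      (fun z => measurable_subtype_coe.comp (L.out_meas τ z.1)) hfold measurable_fst
  simp only [mem_closedBall]
  rw [Measure.prod_apply (measurableSet_le (hs.dist hPm) measurable_const)]
  refine (lintegral_mono fun ω => ?_).trans
    (le_of_eq (by rw [lintegral_const, measure_univ, mul_one]))
  have h := chain_prob_le (g := L.chain τ ω) (L.chain_meas' τ ω)
    (out := fun z => (L.out ω τ z.1 : Vec d)) (fun z => mem_sphere_zero_iff_norm.1 (L.out ω τ z.1).2)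
    (L.init ω, false) (T := T) (k := k) (q := q) hm hmd hdm hnd hβ hsum (by
      rw [Fintype.card_prod, Fintype.card_fin, Fintype.card_bool, ← pow_succ]
      exact Nat.pow_le_pow_right (by norm_num) hq) hk
    (fun i hi z p => if_neg (show ¬ i < τ by omega)) hε
  simp only [mem_closedBall] at h
  exact h

/-- The success probability bound. -/
lemma Learner.succeeds_le [NeZero d] (L : Learner d M) {m n β γ q k T : ℕ} (hm : 1 ≤ m)
    (hmd : 8 * m ≤ d) (hdm : d ≤ 16 * m) (hnd : n + 2 ≤ d) (hβ : n + m + 1 ≤ β)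
    (hsum : β + γ = d - 1) (hq : M + 1 ≤ q * n) (hk : T ≤ k * m) {ε : ℝ} (hε : 0 < ε)
    (hL : L.Succeeds T ε) :
    (2 / 3 : ℝ≥0∞) ≤ 2 ^ (T + 4 * d + β + k * (q + 10 * d)) * ENNReal.ofReal ε ^ γ := by
  refine hL.trans ?_
  let B : ℕ → Set (L.Seed × (Dir d × (Fin T → Vec d))) := fun τ =>
    {p | (p.2.1 : Vec d) ∈ closedBall (L.out p.1 τ
      (fold (L.chain τ p.1) 0 (L.init p.1, false) T p.2.2 (rX p.2.2 (p.2.1 : Vec d))).1 : Vec d) ε}
  refine (measure_mono (t := ⋃ τ ∈ Finset.range (T + 1), B τ) ?_).trans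
    ((measure_biUnion_finset_le _ _).trans ?_)
  · rintro ⟨ω, s, x⟩ hp
    obtain ⟨h1, h2, -⟩ := L.run_index T ω s x T le_rfl
    simp only [Set.mem_iUnion, Finset.mem_range, B, Set.mem_ofPred_eq]
    refine ⟨(L.run T ω s x T).2.1, by omega, ?_⟩
    have hf := L.fold_eq_run T (L.run T ω s x T).2.1 ω s x T le_rfl
    rw [min_eq_right h1] at hf
    have hcast : (fun i : Fin T => x (Fin.castLE le_rfl i)) = x := rfl
    have hcast' : (fun i : Fin T => ⟪x (Fin.castLE le_rfl i), (s : Vec d)⟫) = rX x s := rfl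
    rw [hcast, hcast'] at hf
    rw [hf, mem_closedBall, dist_eq_norm]
    refine norm_sub_le_of_arccos_le (mem_sphere_zero_iff_norm.1 (L.out _ _ _).2)
      (mem_sphere_zero_iff_norm.1 s.2) hε.le ?_
    rw [h2]
    exact hp
  · refine (Finset.sum_le_sum fun τ hτ => L.prob_le hm hmd hdm hnd hβ hsum hq hk hε τ
      (by have := Finset.mem_range.1 hτ; omega)).trans ?_
    rw [Finset.sum_const, Finset.card_range, nsmul_eq_mul]
    have hT : ((T + 1 : ℕ) : ℝ≥0∞) ≤ 2 ^ T := by
      calc ((T + 1 : ℕ) : ℝ≥0∞) ≤ ((2 ^ T : ℕ) : ℝ≥0∞) :=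
            Nat.cast_le.2 (Nat.lt_two_pow_self (n := T))
        _ = _ := by push_cast; rfl
    refine (mul_le_mul_left hT _).trans (le_of_eq ?_)
    rw [show (16 : ℝ≥0∞) = 2 ^ 4 by norm_num, ← pow_mul, ← pow_mul, mul_comm k (q + 10 * d)]
    simp only [pow_add]
    ring

/-- Q1 of P309: with `O(d²)` bits, accuracy `ε` needs `Ω(d log (1 / ε))` samples. -/
theorem memory_sample_tradeoff :
    ∀ C : ℝ, 0 < C → ∃ c' > (0 : ℝ), ∃ ε₀ > (0 : ℝ), ∃ d₀ : ℕ, ∀ d ≥ d₀, ∀ ε : ℝ, 0 < ε →
      ε < ε₀ → ∀ (M T : ℕ), (M : ℝ) ≤ C * (d : ℝ) ^ 2 → ∀ L : Learner d M, L.Succeeds T ε →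
        c' * d * Real.log (1 / ε) ≤ T := by
  intro C hC
  refine ⟨1 / (3500 * (C + 1)), by positivity, Real.exp (-(272 * (C + 1))), Real.exp_pos _, 16,
    fun d hd ε hε hε0 M T hM L hL => ?_⟩
  have : NeZero d := ⟨by omega⟩
  set m := d / 8 with hm
  set q := (M + 1) / m + 1 with hq
  set k := T / m + 1 with hk
  set β := d / 2 with hβ
  set γ := d - 1 - β with hγ
  have hm2 : 2 ≤ m := by omega
  have hqm : M + 1 ≤ q * m := by
    have := Nat.lt_mul_div_succ (M + 1) (show 0 < m by omega)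
    rw [hq, mul_comm]; omega
  have hkm : T ≤ k * m := by
    have := Nat.lt_mul_div_succ T (show 0 < m by omega)
    rw [hk, mul_comm]; omega
  have hmain := L.succeeds_le (m := m) (n := m) (β := β) (γ := γ) (q := q) (k := k) (T := T)
    (by omega) (by omega) (by omega) (by omega) (by omega) (by omega) hqm hkm hε hL
  set P := T + 4 * d + β + k * (q + 10 * d) with hP
  set l := Real.log (1 / ε) with hl
  have hεl : ε = Real.exp (-l) := by
    rw [hl, one_div, Real.log_inv, neg_neg, Real.exp_log hε]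
  have hllow : 272 * (C + 1) < l := by
    have := (Real.log_lt_iff_lt_exp hε).2 hε0
    rw [hl, one_div, Real.log_inv]; linarith
  have hreal : (2 / 3 : ℝ) ≤ 2 ^ P * ε ^ γ := by
    have h := ENNReal.toReal_mono (by finiteness) hmain
    simpa [ENNReal.toReal_mul, ENNReal.toReal_pow, ENNReal.toReal_ofReal hε.le,
      ENNReal.toReal_div] using h
  have hexp : (2 / 3 : ℝ) ≤ Real.exp ((P : ℝ) - γ * l) := by
    refine hreal.trans ?_
    rw [sub_eq_add_neg, Real.exp_add, ← mul_neg, Real.exp_nat_mul (-l) γ, ← hεl,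
      ← mul_one (P : ℝ), Real.exp_nat_mul]
    have h2 : (2 : ℝ) ≤ Real.exp 1 := by linarith [Real.add_one_le_exp (1 : ℝ)]
    gcongr
  have hP1 : (γ : ℝ) * l - P ≤ 1 := by
    by_contra hc
    have h1 : Real.exp ((P : ℝ) - γ * l) ≤ Real.exp (-1) :=
      Real.exp_le_exp.2 (by linarith [not_le.1 hc])
    have h2 : Real.exp (-1) ≤ 1 / 2 := by
      rw [Real.exp_neg, one_div]
      exact inv_anti₀ two_pos (by linarith [Real.add_one_le_exp (1 : ℝ)])
    linarith
  have hdR : (16 : ℝ) ≤ d := by exact_mod_cast hd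
  have hmR : (d : ℝ) ≤ 16 * m := by exact_mod_cast (show d ≤ 16 * m by omega)
  have hmpos : (0 : ℝ) < m := by exact_mod_cast (show 0 < m by omega)
  have hγR : (d : ℝ) ≤ 4 * γ := by exact_mod_cast (show d ≤ 4 * γ by omega)
  have hβR : (β : ℝ) ≤ d := by exact_mod_cast (show β ≤ d by omega)
  have hqR : (q : ℝ) ≤ 17 * (C + 1) * d := by
    have h1 : (((M + 1) / m : ℕ) : ℝ) ≤ 16 * (C + 1) * d := by
      refine Nat.cast_div_le.trans ?_
      rw [div_le_iff₀ hmpos]
      calc ((M + 1 : ℕ) : ℝ) ≤ (C + 1) * d * d := by push_cast; nlinarith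
        _ ≤ (C + 1) * d * (16 * m) := mul_le_mul_of_nonneg_left hmR (by positivity)
        _ = _ := by ring
    rw [hq]; push_cast
    nlinarith
  have hkR : (k : ℝ) * d ≤ 16 * T + d := by
    rw [hk]; push_cast
    have h1 : ((T / m : ℕ) : ℝ) * m ≤ T := by exact_mod_cast Nat.div_mul_le_self T m
    nlinarith [mul_le_mul_of_nonneg_left hmR (Nat.cast_nonneg (α := ℝ) (T / m))]
  have hQ : (q : ℝ) + 10 * d ≤ 27 * (C + 1) * d := by nlinarith
  have hPR : (P : ℝ) + 1 ≤ 433 * (C + 1) * T + 33 * (C + 1) * d := by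
    have h1 : (k : ℝ) * (q + 10 * d) ≤ 27 * (C + 1) * (16 * T + d) := by
      calc (k : ℝ) * (q + 10 * d) ≤ k * (27 * (C + 1) * d) :=
            mul_le_mul_of_nonneg_left hQ (Nat.cast_nonneg k)
        _ = 27 * (C + 1) * (k * d) := by ring
        _ ≤ _ := mul_le_mul_of_nonneg_left hkR (by positivity)
    rw [hP]; push_cast
    nlinarith [mul_nonneg hC.le (Nat.cast_nonneg (α := ℝ) T),
      mul_nonneg hC.le (Nat.cast_nonneg (α := ℝ) d)]
  have hl0 : 0 < l := lt_trans (by positivity) hllow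
  have key : (d : ℝ) * l ≤ 3500 * (C + 1) * T := by
    have h1 : (d : ℝ) * l ≤ 4 * γ * l := mul_le_mul_of_nonneg_right hγR hl0.le
    have h2 : (d : ℝ) * (272 * (C + 1)) ≤ d * l :=
      mul_le_mul_of_nonneg_left hllow.le (by linarith)
    nlinarith [mul_nonneg (show (0 : ℝ) ≤ C + 1 by linarith) (Nat.cast_nonneg (α := ℝ) T)]
  rw [div_mul_eq_mul_div, one_mul, div_mul_eq_mul_div, div_le_iff₀ (by positivity)]
  linarith

end Vale.Agent.P309
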