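import Mathlib
import Vale.Agent.P309.Defs
import Vale.Agent.P309.Chain
import Vale.Agent.P309.Main

/-! The matching upper bound: the Kaczmarz update on a finite grid. -/

namespace Vale.Agent.P309

open MeasureTheory ProbabilityTheory Metric Set Module
open scoped RealInnerProductSpace ENNReal

variable {d : ℕ}

lemma stdGaussian_singleton_zero (hd : 0 < d) : stdGaussian (Vec d) {0} = 0 := by
  obtain ⟨e, rfl⟩ : ∃ e, d = e + 1 := ⟨d - 1, by omega⟩
  have : NullSingletonClass (gaussianReal 0 1) := nullSingletonClass_gaussianReal one_ne_zero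
  rw [← map_pi_eq_stdGaussian, Measure.map_apply (by fun_prop) (measurableSet_singleton 0)]
  refine measure_mono_null (t := (fun x : Fin (e + 1) → ℝ => x 0) ⁻¹' {0}) (fun x hx => ?_) ?_
  · have h := congrArg (fun v : Vec (e + 1) => v 0) (Set.mem_singleton_iff.1 hx)
    simpa using h
  · rw [(measurePreserving_eval (fun _ : Fin (e + 1) => gaussianReal 0 1) 0).measure_preimage
      (measurableSet_singleton 0).nullMeasurableSet]
    exact measure_singleton 0

/-- The direction of a Gaussian vector has mean squared component `1 / d` along a unit vector. -/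
lemma lintegral_dir_sq (hd : 0 < d) {u : Vec d} (hu : ‖u‖ = 1) :
    ∫⁻ x, ENNReal.ofReal (⟪u, x⟫ ^ 2 / ‖x‖ ^ 2) ∂(stdGaussian (Vec d)) = (d : ℝ≥0∞)⁻¹ := by
  let J : Vec d → ℝ≥0∞ := fun v =>
    ∫⁻ x, ENNReal.ofReal (⟪v, x⟫ ^ 2 / ‖x‖ ^ 2) ∂(stdGaussian (Vec d))
  have hinv : ∀ v : Vec d, ‖v‖ = 1 → J v = J u := by
    intro v hv
    set R := (ℝ ∙ (v - u))ᗮ.reflection
    have hR : R v = u := Submodule.reflection_sub (hv.trans hu.symm)
    simp only [J]
    conv_rhs => rw [← stdGaussian_map R]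
    rw [lintegral_map (by fun_prop) (by fun_prop)]
    refine lintegral_congr fun x => ?_
    rw [← hR, LinearIsometryEquiv.inner_map_map, LinearIsometryEquiv.norm_map]
  let b := EuclideanSpace.basisFun (Fin d) ℝ
  have hsum : ∑ i, J (b i) = 1 := by
    simp only [J]
    rw [← lintegral_finsetSum _ fun i _ => by fun_prop]
    have h0 : ∀ᵐ x ∂(stdGaussian (Vec d)), x ≠ 0 := by
      rw [ae_iff]
      simpa using stdGaussian_singleton_zero hd
    refine (lintegral_congr_ae ?_).trans (by simp : ∫⁻ _, (1 : ℝ≥0∞) ∂(stdGaussian (Vec d)) = 1)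
    filter_upwards [h0] with x hx
    rw [← ENNReal.ofReal_sum_of_nonneg (fun i _ => by positivity), ← Finset.sum_div,
      b.sum_sq_inner_right, div_self (pow_ne_zero _ (norm_ne_zero_iff.2 hx)), ENNReal.ofReal_one]
  rw [Finset.sum_congr rfl fun i _ => hinv (b i) (b.orthonormal.1 i), Finset.sum_const,
    Finset.card_univ, Fintype.card_fin, nsmul_eq_mul, mul_comm] at hsum
  exact ENNReal.eq_inv_of_mul_eq_one_left hsum

/-- The Kaczmarz update of the estimate `z` with the pair `(x, y)`. -/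
noncomputable def kacz (z x : Vec d) (y : ℝ) : Vec d :=
  z + ((y - ⟪x, z⟫) / ‖x‖ ^ 2) • x

lemma norm_kacz_le (z s x : Vec d) :
    ‖kacz z x ⟪x, s⟫ - s‖ ≤ ‖z - s‖ - ⟪z - s, x⟫ ^ 2 / ‖x‖ ^ 2 / (2 * ‖z - s‖) := by
  rcases eq_or_ne x 0 with rfl | hx
  · simp [kacz]
  rcases eq_or_ne (z - s) 0 with h | he
  · obtain rfl : z = s := sub_eq_zero.1 h
    simp [kacz]
  set e := z - s
  have he0 : 0 < ‖e‖ := norm_pos_iff.2 he
  set c : ℝ := ⟪e, x⟫ ^ 2 / ‖x‖ ^ 2 with hc
  have hc1 : c ≤ ‖e‖ ^ 2 := by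
    rw [hc, div_le_iff₀ (pow_pos (norm_pos_iff.2 hx) 2), ← mul_pow]
    exact sq_le_sq' (abs_le.1 (abs_real_inner_le_norm e x)).1
      (abs_le.1 (abs_real_inner_le_norm e x)).2
  have hsq : ‖kacz z x ⟪x, s⟫ - s‖ ^ 2 = ‖e‖ ^ 2 - c := by
    have heq : kacz z x ⟪x, s⟫ - s = e - (⟪e, x⟫ / ‖x‖ ^ 2) • x := by
      have hy : ⟪x, s⟫ - ⟪x, z⟫ = -⟪z - s, x⟫ := by
        rw [real_inner_comm x (z - s), inner_sub_right, neg_sub]
      simp only [kacz, e]
      rw [hy, neg_div, neg_smul]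
      abel
    have hx2 : ‖x‖ ≠ 0 := norm_ne_zero_iff.2 hx
    rw [heq, norm_sub_sq_real, inner_smul_right, norm_smul, mul_pow, Real.norm_eq_abs, sq_abs, hc]
    field_simp
    ring
  have hpos : 0 ≤ ‖e‖ - c / (2 * ‖e‖) := by
    rw [sub_nonneg, div_le_iff₀ (by positivity)]
    nlinarith
  refine le_of_pow_le_pow_left₀ two_ne_zero hpos ?_
  rw [hsq]
  have h1 : 2 * ‖e‖ * (c / (2 * ‖e‖)) = c := by field_simp
  nlinarith [sq_nonneg (c / (2 * ‖e‖))]

/-- The point of the grid with index `g`. -/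
noncomputable def gridVal (N : ℕ) (g : Fin d → Fin (2 * N + 1)) : Vec d :=
  WithLp.toLp 2 fun i => ((g i : ℕ) : ℝ) / N - 1

/-- Clamp a real number to `[-1, 1]`. -/
noncomputable def clamp (x : ℝ) : ℝ := max (-1) (min x 1)

/-- The grid index of a vector after clamping. -/
noncomputable def gridIdx (N : ℕ) (v : Vec d) : Fin d → Fin (2 * N + 1) := fun i =>
  ⟨min ⌊(clamp (v i) + 1) * N⌋₊ (2 * N), by omega⟩

lemma measurable_gridIdx (N : ℕ) : Measurable (gridIdx (d := d) N) := by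
  refine measurable_pi_lambda _ fun i => ?_
  have h1 : Measurable fun v : Vec d => ⌊(clamp (v i) + 1) * N⌋₊ := by
    refine Nat.measurable_floor.comp ?_
    simp only [clamp]
    fun_prop
  exact (measurable_of_countable fun k : ℕ =>
    (⟨min k (2 * N), by omega⟩ : Fin (2 * N + 1))).comp h1

lemma abs_grid_coord {N : ℕ} (hN : 0 < N) {a b : ℝ} (hb : |b| ≤ 1) :
    |((min ⌊(clamp a + 1) * N⌋₊ (2 * N) : ℕ) : ℝ) / N - 1 - b| ≤ |a - b| + 1 / N := by
  have hN' : (0 : ℝ) < N := Nat.cast_pos.2 hN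
  obtain ⟨hb1, hb2⟩ := abs_le.1 hb
  have hc1 : -1 ≤ clamp a := le_max_left _ _
  have hc2 : clamp a ≤ 1 := max_le (by norm_num) (min_le_right _ _)
  have hcb : |clamp a - b| ≤ |a - b| := by
    rcases le_total a (-1) with h | h
    · have hh : clamp a = -1 := by simp [clamp, h, min_eq_left (show a ≤ 1 by linarith)]
      rw [hh, abs_of_nonpos (by linarith), abs_of_nonpos (by linarith)]; linarith
    rcases le_total a 1 with h' | h'
    · have hh : clamp a = a := by simp [clamp, h, h']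
      rw [hh]
    · have hh : clamp a = 1 := by simp [clamp, h']
      rw [hh, abs_of_nonneg (by linarith), abs_of_nonneg (by linarith)]; linarith
  set w := (clamp a + 1) * N with hw
  have hw0 : 0 ≤ w := mul_nonneg (by linarith) hN'.le
  have hfl : ⌊w⌋₊ ≤ 2 * N := Nat.floor_le_of_le (by push_cast; nlinarith)
  rw [min_eq_left hfl]
  have h1 := Nat.floor_le hw0
  have h2 := Nat.lt_floor_add_one w
  have h3 : |(⌊w⌋₊ : ℝ) / N - 1 - clamp a| ≤ 1 / N := by
    have e : (⌊w⌋₊ : ℝ) / N - 1 - clamp a = ((⌊w⌋₊ : ℝ) - w) / N := by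
      rw [hw]; field_simp; ring
    rw [e, abs_div, abs_of_pos hN']
    refine div_le_div_of_nonneg_right ?_ hN'.le
    rw [abs_le]; constructor <;> linarith
  calc |(⌊w⌋₊ : ℝ) / N - 1 - b|
      ≤ |(⌊w⌋₊ : ℝ) / N - 1 - clamp a| + |clamp a - b| := abs_sub_le _ _ _
    _ ≤ _ := by linarith

lemma dist_gridIdx_le {N : ℕ} (hN : 0 < N) (v : Vec d) {s : Vec d} (hs : ‖s‖ ≤ 1) :
    ‖gridVal N (gridIdx N v) - s‖ ≤ ‖v - s‖ + √d / N := by
  have hN' : (0 : ℝ) < N := Nat.cast_pos.2 hN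
  let u : Vec d := WithLp.toLp 2 fun i => |(v - s) i|
  let h : Vec d := WithLp.toLp 2 fun _ => 1 / (N : ℝ)
  have hu : ‖u‖ = ‖v - s‖ := by simp [u, EuclideanSpace.norm_eq]
  have hh : ‖h‖ = √d / N := by
    simp [h, EuclideanSpace.norm_eq, Real.sqrt_mul, div_eq_mul_inv]
  calc ‖gridVal N (gridIdx N v) - s‖ ≤ ‖u + h‖ := by
        rw [EuclideanSpace.norm_eq, EuclideanSpace.norm_eq]
        refine Real.sqrt_le_sqrt (Finset.sum_le_sum fun i _ => ?_)
        refine pow_le_pow_left₀ (norm_nonneg _) ?_ 2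
        have hsi : |s i| ≤ 1 := (PiLp.norm_apply_le s i).trans hs
        simp only [Real.norm_eq_abs, PiLp.sub_apply, PiLp.add_apply, gridVal, gridIdx, u, h]
        refine (abs_grid_coord hN hsi).trans (le_abs_self _)
    _ ≤ ‖u‖ + ‖h‖ := norm_add_le _ _
    _ = _ := by rw [hu, hh]

/-- One rounded Kaczmarz step on the grid. -/
noncomputable def gridStep (N : ℕ) (g : Fin d → Fin (2 * N + 1)) (p : Vec d × ℝ) :
    Fin d → Fin (2 * N + 1) :=
  gridIdx N (kacz (gridVal N g) p.1 p.2)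

lemma measurable_gridStep (N : ℕ) (g : Fin d → Fin (2 * N + 1)) :
    Measurable (gridStep N g) :=
  (measurable_gridIdx N).comp (by unfold kacz; fun_prop)

lemma one_step (hd : 0 < d) {N : ℕ} (hN : 0 < N) {s : Vec d} (hs : ‖s‖ = 1)
    (g : Fin d → Fin (2 * N + 1)) :
    ∫⁻ x, ENNReal.ofReal ‖gridVal N (gridStep N g (x, ⟪x, s⟫)) - s‖ ∂(stdGaussian (Vec d)) ≤
      ENNReal.ofReal ((1 - 1 / (2 * d)) * ‖gridVal N g - s‖ + √d / N) := by
  set e := gridVal N g - s with he
  have hd' : (1 : ℝ) ≤ d := Nat.one_le_cast.2 hd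
  have hr : 0 ≤ 1 - 1 / (2 * (d : ℝ)) := by
    rw [sub_nonneg, div_le_one (by positivity)]; linarith
  have hη : 0 ≤ √(d : ℝ) / N := by positivity
  by_cases h0 : e = 0
  · have hzs : gridVal N g = s := sub_eq_zero.1 h0
    calc ∫⁻ x, ENNReal.ofReal ‖gridVal N (gridStep N g (x, ⟪x, s⟫)) - s‖ ∂(stdGaussian (Vec d))
        ≤ ∫⁻ _, ENNReal.ofReal (√d / N) ∂(stdGaussian (Vec d)) := by
          refine lintegral_mono fun x => ENNReal.ofReal_le_ofReal
            ((dist_gridIdx_le hN _ hs.le).trans (le_of_eq ?_))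
          simp [kacz, hzs]
      _ = _ := by rw [lintegral_const, measure_univ, mul_one, h0, norm_zero, mul_zero, zero_add]
  have he0 : 0 < ‖e‖ := norm_pos_iff.2 h0
  set u := ‖e‖⁻¹ • e
  have hu : ‖u‖ = 1 := norm_smul_inv_norm h0
  have hue : ∀ x, ⟪u, x⟫ ^ 2 / ‖x‖ ^ 2 = ⟪e, x⟫ ^ 2 / ‖x‖ ^ 2 / ‖e‖ ^ 2 := by
    intro x
    rw [real_inner_smul_left, mul_pow, inv_pow]
    ring
  have hc1 : ∀ x, ⟪u, x⟫ ^ 2 / ‖x‖ ^ 2 ≤ 1 := by
    intro x
    refine div_le_one_of_le₀ ?_ (sq_nonneg _)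
    have := abs_real_inner_le_norm u x
    rw [hu, one_mul] at this
    exact sq_le_sq' (abs_le.1 this).1 (abs_le.1 this).2
  have hpt : ∀ x, ‖gridVal N (gridStep N g (x, ⟪x, s⟫)) - s‖ ≤
      ‖e‖ * (1 - ⟪u, x⟫ ^ 2 / ‖x‖ ^ 2 / 2) + √d / N := by
    intro x
    refine (dist_gridIdx_le hN _ hs.le).trans
      (add_le_add ((norm_kacz_le _ s x).trans (le_of_eq ?_)) le_rfl)
    rw [← he, hue]
    field_simp
  refine (lintegral_mono fun x => ENNReal.ofReal_le_ofReal (hpt x)).trans ?_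
  have hI : ∫⁻ x, ENNReal.ofReal (1 - ⟪u, x⟫ ^ 2 / ‖x‖ ^ 2 / 2) ∂(stdGaussian (Vec d)) ≤
      ENNReal.ofReal (1 - 1 / (2 * d)) := by
    have hm : Measurable fun x : Vec d => ENNReal.ofReal (⟪u, x⟫ ^ 2 / ‖x‖ ^ 2 / 2) := by fun_prop
    have h1 : ∫⁻ x, ENNReal.ofReal (⟪u, x⟫ ^ 2 / ‖x‖ ^ 2 / 2) ∂(stdGaussian (Vec d)) =
        ENNReal.ofReal (1 / (2 * d)) := by
      simp only [div_eq_mul_inv _ (2 : ℝ)]
      rw [lintegral_congr fun x => ENNReal.ofReal_mul' (by norm_num : (0 : ℝ) ≤ 2⁻¹),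
        lintegral_mul_const' _ _ ENNReal.ofReal_ne_top, lintegral_dir_sq hd hu,
        ← ENNReal.ofReal_natCast, ← ENNReal.ofReal_inv_of_pos (by linarith),
        ← ENNReal.ofReal_mul (by positivity)]
      congr 1
      ring
    have h2 : ∀ x : Vec d, ENNReal.ofReal (1 - ⟪u, x⟫ ^ 2 / ‖x‖ ^ 2 / 2) =
        1 - ENNReal.ofReal (⟪u, x⟫ ^ 2 / ‖x‖ ^ 2 / 2) := fun x => by
      rw [ENNReal.ofReal_sub _ (by positivity), ENNReal.ofReal_one]
    have hle : ∀ x : Vec d, ENNReal.ofReal (⟪u, x⟫ ^ 2 / ‖x‖ ^ 2 / 2) ≤ 1 := fun x => by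
      rw [← ENNReal.ofReal_one]; exact ENNReal.ofReal_le_ofReal (by linarith [hc1 x])
    rw [lintegral_congr h2, lintegral_sub hm (by rw [h1]; exact ENNReal.ofReal_ne_top)
      (Filter.Eventually.of_forall hle), lintegral_const, measure_univ, mul_one, h1,
      ENNReal.ofReal_sub _ (by positivity), ENNReal.ofReal_one]
  calc ∫⁻ x, ENNReal.ofReal (‖e‖ * (1 - ⟪u, x⟫ ^ 2 / ‖x‖ ^ 2 / 2) + √d / N) ∂(stdGaussian (Vec d))
      = ∫⁻ x, (ENNReal.ofReal ‖e‖ * ENNReal.ofReal (1 - ⟪u, x⟫ ^ 2 / ‖x‖ ^ 2 / 2) +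
          ENNReal.ofReal (√d / N)) ∂(stdGaussian (Vec d)) := by
        refine lintegral_congr fun x => ?_
        rw [ENNReal.ofReal_add (mul_nonneg he0.le (by linarith [hc1 x])) hη,
          ENNReal.ofReal_mul he0.le]
    _ ≤ ENNReal.ofReal ‖e‖ * ENNReal.ofReal (1 - 1 / (2 * d)) + ENNReal.ofReal (√d / N) := by
        rw [lintegral_add_right _ measurable_const, lintegral_const, measure_univ, mul_one,
          lintegral_const_mul' _ _ ENNReal.ofReal_ne_top]
        exact add_le_add (mul_le_mul_right hI _) le_rfl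
    _ = _ := by
        rw [← ENNReal.ofReal_mul he0.le, ← ENNReal.ofReal_add (mul_nonneg he0.le hr) hη, mul_comm]

/-- The expected error after `n` rounded steps. -/
lemma valueFn_grid_le (hd : 0 < d) {N : ℕ} (hN : 0 < N) {s : Vec d} (hs : ‖s‖ = 1) :
    ∀ n i g, valueFn (fun _ => gridStep N) (fun g v => ENNReal.ofReal ‖gridVal N g - v‖) n i g s ≤
      ENNReal.ofReal ((1 - 1 / (2 * d : ℝ)) ^ n * ‖gridVal N g - s‖ +
        (1 - (1 - 1 / (2 * d : ℝ)) ^ n) * (2 * d * (√d / N)))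
  | 0, i, g => by simp [valueFn]
  | n + 1, i, g => by
    set r : ℝ := 1 - 1 / (2 * d) with hr
    set η : ℝ := √d / N with hη
    have hd' : (1 : ℝ) ≤ d := Nat.one_le_cast.2 hd
    have hr0 : 0 ≤ r := by rw [hr, sub_nonneg, div_le_one (by positivity)]; linarith
    have hr1 : r ≤ 1 := sub_le_self _ (by positivity)
    have hη0 : 0 ≤ η := by positivity
    have hc : 0 ≤ (1 - r ^ n) * (2 * d * η) :=
      mul_nonneg (sub_nonneg.2 (pow_le_one₀ hr0 hr1)) (by positivity)
    simp only [valueFn]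
    refine (lintegral_mono fun x => valueFn_grid_le hd hN hs n (i + 1) _).trans ?_
    calc ∫⁻ x, ENNReal.ofReal (r ^ n * ‖gridVal N (gridStep N g (x, ⟪x, s⟫)) - s‖ +
          (1 - r ^ n) * (2 * d * η)) ∂(stdGaussian (Vec d))
        = ENNReal.ofReal (r ^ n) *
            ∫⁻ x, ENNReal.ofReal ‖gridVal N (gridStep N g (x, ⟪x, s⟫)) - s‖ ∂(stdGaussian (Vec d)) +
            ENNReal.ofReal ((1 - r ^ n) * (2 * d * η)) := by
          rw [← lintegral_const_mul' _ _ ENNReal.ofReal_ne_top]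
          conv_rhs => arg 2; rw [← mul_one (ENNReal.ofReal _),
            ← measure_univ (μ := stdGaussian (Vec d)), ← lintegral_const]
          rw [← lintegral_add_right _ measurable_const]
          refine lintegral_congr fun x => ?_
          rw [ENNReal.ofReal_add (by positivity) hc, ENNReal.ofReal_mul (by positivity)]
      _ ≤ ENNReal.ofReal (r ^ n) * ENNReal.ofReal (r * ‖gridVal N g - s‖ + η) +
            ENNReal.ofReal ((1 - r ^ n) * (2 * d * η)) :=
          add_le_add (mul_le_mul_right (one_step hd hN hs g) _) le_rfl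
      _ = _ := by
          rw [← ENNReal.ofReal_mul (by positivity), ← ENNReal.ofReal_add (by positivity) hc]
          congr 1
          have h1 : r * (2 * d * η) = 2 * d * η - η := by rw [hr]; field_simp
          have h2 : r ^ (n + 1) = r ^ n * r := pow_succ r n
          rw [h2]
          linear_combination (r ^ n) * h1

lemma norm_normalize_sub_le {z s : Vec d} (hs : ‖s‖ = 1) (hz : z ≠ 0) :
    ‖‖z‖⁻¹ • z - s‖ ≤ 2 * ‖z - s‖ := by
  have h1 : ‖‖z‖⁻¹ • z - z‖ = |1 - ‖z‖| := by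
    have e : ‖z‖⁻¹ • z - z = (‖z‖⁻¹ - 1) • z := by rw [sub_smul, one_smul]
    rw [e, norm_smul, Real.norm_eq_abs, ← abs_of_pos (norm_pos_iff.2 hz), ← abs_mul]
    congr 1
    rw [abs_of_pos (norm_pos_iff.2 hz), sub_mul, inv_mul_cancel₀ (norm_ne_zero_iff.2 hz), one_mul]
  have h2 : |1 - ‖z‖| ≤ ‖z - s‖ := by
    rw [← hs, abs_sub_comm]; exact abs_norm_sub_norm_le z s
  linarith [norm_sub_le_norm_sub_add_norm_sub (‖z‖⁻¹ • z) z s]

lemma arccos_le_two_mul_norm_sub {u v : Vec d} (hu : ‖u‖ = 1) (hv : ‖v‖ = 1) :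
    Real.arccos ⟪u, v⟫ ≤ 2 * ‖u - v‖ := by
  have hab : |⟪u, v⟫| ≤ 1 := by simpa [hu, hv] using abs_real_inner_le_norm u v
  obtain ⟨h1, h2⟩ := abs_le.1 hab
  set θ := Real.arccos ⟪u, v⟫
  have hθ0 : 0 ≤ θ := Real.arccos_nonneg _
  have hθπ : θ ≤ Real.pi := Real.arccos_le_pi _
  have hcos : Real.cos θ = ⟪u, v⟫ := Real.cos_arccos h1 h2
  have hsin := Real.mul_le_sin (x := θ / 2) (by linarith) (by linarith)
  have h4 : ‖u - v‖ = 2 * Real.sin (θ / 2) := by
    have hs0 : 0 ≤ Real.sin (θ / 2) :=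
      Real.sin_nonneg_of_nonneg_of_le_pi (by linarith) (by linarith [Real.pi_pos])
    refine (pow_left_inj₀ (norm_nonneg _) (by positivity) two_ne_zero).1 ?_
    rw [norm_sub_sq_real, hu, hv, ← hcos, mul_pow, Real.sin_sq_eq_half_sub]
    rw [show 2 * (θ / 2) = θ by ring]
    ring
  rw [h4]
  have hπ : Real.pi ≤ 4 := Real.pi_le_four
  have h5 : θ / 4 ≤ 2 / Real.pi * (θ / 2) := by
    have e : 2 / Real.pi * (θ / 2) = θ / Real.pi := by ring
    rw [e]
    exact div_le_div_of_nonneg_left hθ0 Real.pi_pos hπ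
  linarith

/-- Decode a state. -/
noncomputable def decode {α : Type} [Inhabited α] {K : ℕ} (emb : α ↪ Fin K) : Fin K → α :=
  Function.invFun emb

/-- The unit vector attached to `z`. -/
noncomputable def toDir (hd : 0 < d) (z : Vec d) : Dir d :=
  if h : z = 0 then ⟨EuclideanSpace.single (⟨0, hd⟩ : Fin d) (1 : ℝ), by simp⟩
  else ⟨‖z‖⁻¹ • z, by simp [norm_smul, h]⟩

/-- The learner running rounded Kaczmarz steps on the grid of mesh `1 / N`. -/
noncomputable def kaczLearner (hd : 0 < d) (N M : ℕ)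
    (emb : (Fin d → Fin (2 * N + 1)) ↪ Fin (2 ^ M)) : Learner d M where
  Seed := PUnit
  seedSpace := inferInstance
  law := Measure.dirac PUnit.unit
  law_prob := inferInstance
  init _ := emb (gridIdx N 0)
  step _ _ z p := emb (gridStep N (Function.invFun emb z) p)
  stop _ _ _ _ := false
  out _ _ z := toDir hd (gridVal N (Function.invFun emb z))
  init_meas := measurable_const
  step_meas _ z := ((measurable_of_countable emb).comp
    (measurable_gridStep N (Function.invFun emb z))).comp measurable_snd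
  stop_meas _ _ := measurable_const
  out_meas _ _ := measurable_const

lemma kaczLearner_run (hd : 0 < d) (N M : ℕ) (emb : (Fin d → Fin (2 * N + 1)) ↪ Fin (2 ^ M))
    (T : ℕ) (ω : PUnit) (s : Dir d) (x : Fin T → Vec d) : ∀ k (hk : k ≤ T),
    (kaczLearner hd N M emb).run T ω s x k =
      (emb (fold (fun _ => gridStep N) 0 (gridIdx N 0) k (fun i => x (Fin.castLE hk i))
        (fun i => ⟪x (Fin.castLE hk i), (s : Vec d)⟫)), k, false)
  | 0, _ => rfl
  | k + 1, hk => by
    have hkT : k < T := by omega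
    simp only [Learner.run, kaczLearner_run hd N M emb T ω s x k (by omega), dif_pos hkT,
      Bool.false_eq_true, if_false]
    show (emb (gridStep N (Function.invFun emb (emb _)) _), k + 1, false) = _
    rw [Function.leftInverse_invFun emb.injective]
    rfl

/-- The rounded Kaczmarz learner succeeds. -/
lemma kaczLearner_succeeds (hd : 0 < d) {N M T : ℕ} (hN : 0 < N)
    (emb : (Fin d → Fin (2 * N + 1)) ↪ Fin (2 ^ M)) {ε : ℝ} (hε : 0 < ε) (hε1 : ε < 1)
    (hT : (1 - 1 / (2 * d : ℝ)) ^ T * (1 + √d / N) ≤ ε / 24)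
    (hη : 2 * d * (√d / N) ≤ ε / 24) :
    (kaczLearner hd N M emb).Succeeds T ε := by
  have : NeZero d := ⟨by omega⟩
  let G : (Fin T → Vec d) → Vec d → Vec d := fun x v =>
    gridVal N (fold (fun _ => gridStep N) 0 (gridIdx N 0) T x (rX x v))
  have hfoldm : ∀ {α : Type} [MeasurableSpace α] {f : α → Fin T → Vec d} {v : α → Vec d},
      Measurable f → Measurable v → Measurable fun a => G (f a) (v a) := fun {α} _ {f v} hf hv =>
    (measurable_of_countable (gridVal N)).comp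
      (measurable_fold (g := fun _ => gridStep N) (fun _ z => measurable_gridStep N z) 0
        (gridIdx N 0) T hf (measurable_rX' hf hv))
  let B : Set ((kaczLearner hd N M emb).Seed × (Dir d × (Fin T → Vec d))) :=
    {q | ‖G q.2.2 (q.2.1 : Vec d) - (q.2.1 : Vec d)‖ ≤ ε / 4}
  have hsm : Measurable fun q : PUnit.{1} × (Dir d × (Fin T → Vec d)) => (q.2.1 : Vec d) :=
    measurable_subtype_coe.comp measurable_snd.fst
  have hBm : MeasurableSet B :=
    measurableSet_le ((hfoldm measurable_snd.snd hsm).sub hsm).norm measurable_const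
  refine le_trans ?_ (measure_mono (s := B) ?_)
  · rw [Measure.prod_apply hBm]
    have hsec : ∀ ω, (2 / 3 : ℝ≥0∞) ≤
        ((unifDir d).prod (rows d T)) (Prod.mk ω ⁻¹' B) := by
      intro ω
      rw [Measure.prod_apply (measurable_prodMk_left hBm)]
      have hsec2 : ∀ s : Dir d, (2 / 3 : ℝ≥0∞) ≤
          rows d T (Prod.mk s ⁻¹' (Prod.mk ω ⁻¹' B)) := by
        intro s
        have hs : ‖(s : Vec d)‖ = 1 := mem_sphere_zero_iff_norm.1 s.2
        have hGm : Measurable fun x => ENNReal.ofReal ‖G x (s : Vec d) - (s : Vec d)‖ :=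
          ((hfoldm measurable_id measurable_const).sub measurable_const).norm.ennreal_ofReal
        have hE : ∫⁻ x, ENNReal.ofReal ‖G x (s : Vec d) - (s : Vec d)‖ ∂(rows d T) ≤
            ENNReal.ofReal (ε / 12) := by
          have h := valueFn_grid_le hd hN hs T 0 (gridIdx N 0)
          rw [show valueFn (fun _ => gridStep N)
              (fun g v => ENNReal.ofReal ‖gridVal N g - v‖) T 0 (gridIdx N 0) (s : Vec d) =
              valueFn (fun _ => gridStep N)
              (fun g v => ENNReal.ofReal ‖gridVal N g - v‖) (0 + T) 0 (gridIdx N 0) (s : Vec d)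
            by rw [zero_add],
            valueFn_add (fun _ z => measurable_gridStep N z) (fun z => by fun_prop) T 0 0] at h
          refine h.trans (ENNReal.ofReal_le_ofReal ?_)
          set r : ℝ := 1 - 1 / (2 * d)
          have hd' : (1 : ℝ) ≤ d := Nat.one_le_cast.2 hd
          have hr0 : 0 ≤ r := by
            simp only [r]; rw [sub_nonneg, div_le_one (by positivity)]; linarith
          have h0 : ‖gridVal N (gridIdx N (0 : Vec d)) - (s : Vec d)‖ ≤ 1 + √d / N :=
            (dist_gridIdx_le hN 0 hs.le).trans (by simp [hs])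
          have h1 : r ^ T * ‖gridVal N (gridIdx N (0 : Vec d)) - (s : Vec d)‖ ≤ ε / 24 :=
            (mul_le_mul_of_nonneg_left h0 (pow_nonneg hr0 T)).trans hT
          have h2 : (1 - r ^ T) * (2 * d * (√d / N)) ≤ 2 * d * (√d / N) :=
            mul_le_of_le_one_left (by positivity) (sub_le_self _ (pow_nonneg hr0 T))
          linarith
        set A := {x : Fin T → Vec d |
          ENNReal.ofReal (ε / 4) < ENNReal.ofReal ‖G x (s : Vec d) - (s : Vec d)‖} with hA
        have hAm : MeasurableSet A := measurableSet_lt measurable_const hGm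
        have hA3 : rows d T A ≤ 1 / 3 := by
          have hmk := mul_meas_ge_le_lintegral₀ (μ := rows d T) hGm.aemeasurable
            (ENNReal.ofReal (ε / 4))
          have hsub : rows d T A ≤ rows d T
              {x | ENNReal.ofReal (ε / 4) ≤ ENNReal.ofReal ‖G x (s : Vec d) - (s : Vec d)‖} :=
            measure_mono fun x (hx : ENNReal.ofReal (ε / 4) < _) => le_of_lt hx
          have h3 : ENNReal.ofReal (ε / 4) * rows d T A ≤ ENNReal.ofReal (ε / 4) * (1 / 3) := by
            refine (mul_le_mul_right hsub _).trans (hmk.trans (hE.trans (le_of_eq ?_)))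
            rw [one_div, ← ENNReal.ofReal_ofNat 3, ← ENNReal.ofReal_inv_of_pos three_pos,
              ← ENNReal.ofReal_mul (by positivity)]
            congr 1
            ring
          exact (ENNReal.mul_le_mul_iff_right (ENNReal.ofReal_pos.2 (by positivity)).ne'
            ENNReal.ofReal_ne_top).1 h3
        have hsub : Aᶜ ⊆ Prod.mk s ⁻¹' (Prod.mk ω ⁻¹' B) := fun x hx => by
          simp only [A, Set.mem_compl_iff, Set.mem_ofPred_eq, not_lt] at hx
          exact (ENNReal.ofReal_le_ofReal_iff (by positivity)).1 hx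
        refine le_trans ?_ (measure_mono hsub)
        rw [measure_compl hAm (measure_ne_top _ _), measure_univ]
        calc (2 / 3 : ℝ≥0∞) = 1 - 1 / 3 := by
              refine ENNReal.eq_sub_of_add_eq (by simp) ?_
              rw [← ENNReal.add_div, show (2 : ℝ≥0∞) + 1 = 3 by norm_num,
                ENNReal.div_self (by norm_num) (by norm_num)]
          _ ≤ 1 - rows d T A := tsub_le_tsub_left hA3 _
      calc (2 / 3 : ℝ≥0∞) = ∫⁻ _, (2 / 3 : ℝ≥0∞) ∂(unifDir d) := by simp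
        _ ≤ _ := lintegral_mono hsec2
    calc (2 / 3 : ℝ≥0∞) = ∫⁻ _, (2 / 3 : ℝ≥0∞) ∂(kaczLearner hd N M emb).law := by simp
      _ ≤ _ := lintegral_mono hsec
  · rintro ⟨ω, s, x⟩ hq
    show Real.arccos _ ≤ ε
    have hs : ‖(s : Vec d)‖ = 1 := mem_sphere_zero_iff_norm.1 s.2
    rw [Learner.answer, kaczLearner_run hd N M emb T ω s x T le_rfl]
    show Real.arccos ⟪((toDir hd (gridVal N (Function.invFun emb (emb _))) : Dir d) : Vec d), _⟫ ≤ ε
    rw [Function.leftInverse_invFun emb.injective]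
    show Real.arccos ⟪((toDir hd (G x s) : Dir d) : Vec d), _⟫ ≤ ε
    have hB : ‖G x s - (s : Vec d)‖ ≤ ε / 4 := hq
    have hne : G x s ≠ 0 := fun h => by
      rw [h, zero_sub, norm_neg, hs] at hB; linarith
    rw [toDir, dif_neg hne]
    refine (arccos_le_two_mul_norm_sub ?_ hs).trans ?_
    · simp [norm_smul, hne]
    · have := norm_normalize_sub_le hs hne
      dsimp only at this ⊢
      linarith

/-- The upper bound: `O(d log (d / ε))` bits and `O(d log (1 / ε))` samples suffice. -/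
theorem kaczmarz_upper_bound :
    ∃ C₁ > (0 : ℝ), ∀ d : ℕ, 2 ≤ d → ∀ ε : ℝ, 0 < ε → ε < 1 / 2 → ∀ M : ℕ,
      C₁ * d * Real.log (d / ε) ≤ M →
        ∃ T : ℕ, (T : ℝ) ≤ C₁ * d * Real.log (1 / ε) ∧ ∃ L : Learner d M, L.Succeeds T ε := by
  refine ⟨100, by norm_num, fun d hd ε hε hε2 M hM => ?_⟩
  have hdR : (2 : ℝ) ≤ d := by exact_mod_cast hd
  have hd0 : 0 < d := by omega
  have hlog2 : (1 / 2 : ℝ) < Real.log 2 := by linarith [Real.log_two_gt_d9]
  have hL1 : Real.log 2 ≤ Real.log (1 / ε) :=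
    Real.log_le_log two_pos (by rw [le_div_iff₀ hε]; linarith)
  set N := ⌈48 * (d : ℝ) ^ 2 / ε⌉₊ with hN
  have hN1 : 48 * (d : ℝ) ^ 2 / ε ≤ N := Nat.le_ceil _
  have hN0 : 0 < N := Nat.ceil_pos.2 (by positivity)
  have hN2 : (N : ℝ) < 48 * (d : ℝ) ^ 2 / ε + 1 := Nat.ceil_lt_add_one (by positivity)
  set b := Nat.clog 2 (2 * N + 1) with hb
  have hbM : d * b ≤ M := by
    have hb1 : 2 ^ (b - 1) ≤ 2 * N + 1 := by
      rcases Nat.eq_zero_or_pos b with h | h
      · rw [h]; simp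
      · exact (Nat.pow_pred_clog_lt_self (by norm_num) (by omega)).le
    have hb2 : (b : ℝ) * Real.log 2 ≤ Real.log (128 * (d / ε) ^ 2) + Real.log 2 := by
      have hq : (1 : ℝ) ≤ (d / ε) ^ 2 := one_le_pow₀ (by rw [le_div_iff₀ hε]; linarith)
      have h1 : ((2 : ℝ) ^ (b - 1)) ≤ 128 * (d / ε) ^ 2 := by
        have h3 : ((2 : ℝ) ^ (b - 1)) ≤ 2 * N + 1 := by exact_mod_cast hb1
        have h4 : 48 * (d : ℝ) ^ 2 / ε ≤ 48 * (d / ε) ^ 2 := by
          rw [div_pow, mul_div_assoc]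
          refine mul_le_mul_of_nonneg_left ?_ (by norm_num)
          exact div_le_div_of_nonneg_left (by positivity) (by positivity) (by nlinarith)
        linarith
      have h5 := Real.log_le_log (by positivity) h1
      rw [Real.log_pow] at h5
      have h6 : (b : ℝ) ≤ ((b - 1 : ℕ) : ℝ) + 1 := by exact_mod_cast (by omega : b ≤ b - 1 + 1)
      nlinarith
    have hl : Real.log 2 ≤ Real.log (d / ε) :=
      Real.log_le_log two_pos (by rw [le_div_iff₀ hε]; nlinarith)
    have h128 : Real.log (128 * (d / ε) ^ 2) = 7 * Real.log 2 + 2 * Real.log (d / ε) := by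
      rw [show (128 : ℝ) = 2 ^ 7 by norm_num, Real.log_mul (by norm_num) (by positivity),
        Real.log_pow, Real.log_pow]
      norm_num
    have : ((d * b : ℕ) : ℝ) ≤ M := by
      push_cast
      have hb3 : (b : ℝ) ≤ 20 * Real.log (d / ε) := by nlinarith [Nat.cast_nonneg (α := ℝ) b]
      nlinarith
    exact_mod_cast this
  have hcard : Fintype.card (Fin d → Fin (2 * N + 1)) ≤ 2 ^ M := by
    rw [Fintype.card_fun, Fintype.card_fin, Fintype.card_fin]
    calc (2 * N + 1) ^ d ≤ (2 ^ b) ^ d :=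
          Nat.pow_le_pow_left (Nat.le_pow_clog (by norm_num) _) d
      _ = 2 ^ (d * b) := by rw [← pow_mul, mul_comm]
      _ ≤ 2 ^ M := Nat.pow_le_pow_right (by norm_num) hbM
  let emb : (Fin d → Fin (2 * N + 1)) ↪ Fin (2 ^ M) :=
    (Fintype.equivFin _).toEmbedding.trans (Fin.castLEEmb hcard)
  set T := ⌈2 * (d : ℝ) * Real.log (48 / ε)⌉₊ with hT
  have hl48 : Real.log (48 / ε) ≤ 7 * Real.log (1 / ε) := by
    rw [show (48 : ℝ) / ε = 48 * (1 / ε) by ring, Real.log_mul (by norm_num) (by positivity)]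
    have h48 : Real.log 48 ≤ 6 * Real.log 2 := by
      rw [show (6 : ℝ) * Real.log 2 = Real.log (2 ^ 6) by rw [Real.log_pow]; norm_num]
      exact Real.log_le_log (by norm_num) (by norm_num)
    linarith
  have hl0 : 0 ≤ Real.log (48 / ε) :=
    Real.log_nonneg (by rw [le_div_iff₀ hε]; linarith)
  refine ⟨T, ?_, kaczLearner hd0 N M emb, kaczLearner_succeeds hd0 hN0 emb hε (by linarith) ?_ ?_⟩
  · have := Nat.ceil_lt_add_one (show 0 ≤ 2 * (d : ℝ) * Real.log (48 / ε) by positivity)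
    rw [← hT] at this
    nlinarith
  · have hη1 : √(d : ℝ) / N ≤ 1 := by
      rw [div_le_one (Nat.cast_pos.2 hN0)]
      refine le_trans ?_ hN1
      rw [le_div_iff₀ hε]
      nlinarith [show √(d : ℝ) ≤ d from Real.sqrt_le_iff.2 ⟨by linarith, by nlinarith⟩,
        Real.sqrt_nonneg (d : ℝ)]
    have hr : (1 - 1 / (2 * d : ℝ)) ^ T ≤ ε / 48 := by
      have h1 : (1 - 1 / (2 * d : ℝ)) ≤ Real.exp (-(1 / (2 * d))) := by
        linarith [Real.add_one_le_exp (-(1 / (2 * d : ℝ)))]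
      refine (pow_le_pow_left₀ (by rw [sub_nonneg, div_le_one (by positivity)]; linarith) h1 T).trans ?_
      have h2 : Real.exp (-(1 / (2 * d : ℝ))) ^ T = Real.exp (-(T / (2 * d))) := by
        rw [← Real.exp_nat_mul]; congr 1; ring
      rw [h2, show ε / 48 = Real.exp (-Real.log (48 / ε)) by
        rw [Real.exp_neg, Real.exp_log (by positivity), inv_div]]
      refine Real.exp_le_exp.2 (neg_le_neg ?_)
      rw [le_div_iff₀ (by positivity)]
      linarith [Nat.le_ceil (2 * (d : ℝ) * Real.log (48 / ε))]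
    calc _ ≤ ε / 48 * 2 := mul_le_mul hr (by linarith) (by positivity) (by positivity)
      _ = _ := by ring
  · rw [← mul_div_assoc, div_le_iff₀ (Nat.cast_pos.2 hN0)]
    have h := (div_le_iff₀ hε).1 hN1
    nlinarith [show √(d : ℝ) ≤ d from Real.sqrt_le_iff.2 ⟨by linarith, by nlinarith⟩,
        Real.sqrt_nonneg (d : ℝ)]

end Vale.Agent.P309
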